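import Vale.Agent.P291Y.L4

/-!
# The semistable locus, Kirwan map, coefficient map, fixed schemes, flavour parameters
-/

noncomputable section

namespace Vale.Agent.N291

open Vale.Agent.P291Y Dat

variable (D : Dat) (ν : D.qv.Vx → ℤ)

/-- `N ⊕ N^*` with the action of `G × F`. -/
def TN : SG D.nn := prod D.NN.gs D.ND

/-- The points of `N ⊕ N^*`. -/
abbrev Tq : Type := D.Nc × D.Nd

/-- `μ⁻¹(0)` -/
def Mz (z : Tq D) : Prop := D.Mu z.1 z.2

/-- Polynomial functions on `N ⊕ N^*`: polynomials in the linear forms. -/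
def Pol (P : MvPolynomial (D.Nd × D.Nc) ℂ) (z : Tq D) : ℂ :=
  P.eval₂ (RingHom.id ℂ) fun l => D.ev l.1 z.1 + D.ev z.2 l.2

/-- The character `ν(g) = ∏ det(g_i) ^ ν_i`. -/
def chv (g : GG D.nn) : ℂ := ∏ i ∈ @Finset.univ _ D.qv.fV, mdet _ ℂ (D.ga g) i ^ ν i

/-- The `ν`-semistable points of `μ⁻¹(0)`. -/
def Ss (z : Tq D) : Prop :=
  Mz D z ∧ ∃ (m : ℕ) (P : _), 0 < m ∧ Pol D P z ≠ 0 ∧
    ∀ g y, D.InG g → Mz D y → Pol D P ((TN D).act g y) = chv D ν g ^ m * Pol D P y

/-- `G` acts freely on the semistable locus. -/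
def Fre : Prop := ∀ z g, Ss D ν z → D.InG g → (TN D).act g z = z → g = gone _

/-- `ν · d ≠ 0` for all dimension vectors `0 < d ≤ v`. -/
def Gen : Prop :=
  ∀ d : _ → ℕ, (∀ i, d i ≤ D.qv.dv i) → (∃ i, d i ≠ 0) → @dot _ D.qv.fV ν (fun i => d i) ≠ 0

variable (Z : SG D.nn)

/-- A `G × F`-space `Z` as a `G`-space. -/
def ZG : GS (Subtype D.InG) := res Subtype.val Z

/-- `X = Z / G` with the action of `F`. -/
def XZ : SG D.nF := ⟨orb (ZG D Z), fun f q => omk (ZG D Z) (Z.act (ginr _ _ f) q.out)⟩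

/-- `c` is the characteristic class `r` of the principal `G`-bundle `Z → X`. -/
def Kir (r : CG D.p1) (c : CG (XZ D Z)) : Prop :=
  ∀ M, Coh (pull (X := Bo Z M) (Y := Bo (XZ D Z) M) (omap Z (EE _ M) (XZ D Z) (EE _ M)
    (fun z _ => omk (ZG D Z) z) (resE _ Sum.inr M)) (c M)) (pull (bmap Z _ (fun _ => ()) M) (r M))

/-- The `a`-th coordinate character of `F`. -/
def ln (a : D.Fl) : VS (GG D.nn) := ⟨TV.line, fun g (z : ℂ) => ((D.fl g a).1 * z : ℂ)⟩

/-- The flavour parameter `f_a`, the Euler class of that character. -/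
def flav (a : D.Fl) : CG D.p1 := fun M => euler D.p1 (ln D a) (EE _ M) fun _ _ => TV.zero _

variable (R H A : Type) [CommRing R] [CommRing H] [CommRing A] [Algebra ℂ R] [Algebra ℂ H]
  [Algebra ℂ A] [Algebra R H] [Algebra R A]
  (cr : CG D.p1 → R) (cl : CG (XZ D Z) → H) (cls : ∀ p : D.Pa, AF p → A)

/-- `H` is `H^*_F(X)`, and the structure map `R → H` is the Kirwan map. -/
def Higgs : Prop :=
  IsCoh _ H cl ∧ ∀ k r, IsHG _ k r → ∃ c, IsHG _ k c ∧ Kir D Z r c ∧ am R H (cr r) = cl c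

/-- `R` is `H^*_{G × F}(pt)`, `A` is `A_F`, and the structure map `R → A` is the coefficient map. -/
def Coul : Prop :=
  IsCoh _ R cr ∧ D.IsCoul A cls ∧
    ∀ k r, IsHG _ k r → ∃ β, An _ (-k) β ∧ D.CapRel r β ∧ am R A (cr r) = cls _ β

/-- The ideal generated by the parts of nonzero `ν`-weight. -/
def JN : Ideal A := Ideal.span (D.Cl A cls fun p => @dot _ D.qv.fV ν p.ch ≠ 0)

/-- The ideal generated by the parts of nonzero topological charge. -/
def JT : Ideal A := Ideal.span (D.Cl A cls fun p => ∃ i, p.ch i ≠ 0)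

/-- `R → H` is onto, and `H` is a free module of finite rank over the polynomial ring in the
elements `f a` of `R`. -/
def Fr (Φ : Type) (f : Φ → R) : Prop :=
  (am R H).Surjective ∧ ∃ (n : ℕ) (b : Fin n → H),
    (fun c : Fin n → MvPolynomial Φ ℂ => ∑ i, MvPolynomial.aeval f (c i) • b i).Bijective

/-- A ring `H = H^*_F(X)` with the Kirwan map exists, and for each such `H`, `H ≃ A / J` as graded
`R`-algebras; `J` is generated by the parts of nonzero charge; `R → A / J` is onto and `A / J` is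
free of finite rank over `H^*_F(pt)`. -/
def Hik (J : Ideal A) : Prop :=
  (∃ (H : CommAlgCat.{0} ℂ) (_ : Algebra R H) (cl : _), Higgs D Z R H cr cl) ∧
  (∀ (H : CommAlgCat.{0} ℂ) [Algebra R H] cl, Higgs D Z R H cr cl →
    GrIso R H A J (fun k h => ∃ c, IsHG _ k c ∧ h = cl c)
      fun k a => ∃ p β, An p (-k) β ∧ a = cls p β) ∧
  J = JT D A cls ∧ Fr R (A ⧸ J) D.Fl fun a => cr (flav D a)

end Vale.Agent.N291
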