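import Vale.Agent.P291Z.HigF

/-!
# The quotient by the cut products is finite over the flavour parameters
-/

set_option linter.all false

noncomputable section

namespace Vale.Agent.N291

open MvPolynomial Vale.Agent.P291

variable {I E B Λ : Type} [Fintype E] [DecidableEq I] [Fintype B] [DecidableEq B] [CommRing Λ]
  [IsDomain Λ] [Algebra ℂ Λ]

variable (B Λ) in
/-- Polynomials of degree less than `n`. -/
def Flt (n : ℕ) : Submodule Λ (SS B Λ) := restrictSupport Λ {m | m.degree < n}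

theorem mem_Flt {n : ℕ} {f : SS B Λ} : f ∈ Flt B Λ n ↔ ∀ m ∈ f.support, m.degree < n := Iff.rfl

theorem Flt_mono {n n' : ℕ} (h : n ≤ n') : Flt B Λ n ≤ Flt B Λ n' :=
  fun _ hf m hm => (hf hm).trans_le h

theorem Flt_mul {a b : ℕ} {f g : SS B Λ} (hf : f ∈ Flt B Λ (a + 1)) (hg : g ∈ Flt B Λ b) :
    f * g ∈ Flt B Λ (a + b) := mem_Flt.2 fun m hm => by
  obtain ⟨u, hu, v, hv, rfl⟩ := Finset.mem_add.1 (support_mul f g hm)
  have h1 := mem_Flt.1 hf u hu
  have h2 := mem_Flt.1 hg v hv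
  rw [map_add]
  omega

theorem Flt_hom {d : ℕ} {f : SS B Λ} (h : f.IsHomogeneous d) : f ∈ Flt B Λ (d + 1) :=
  mem_Flt.2 fun m hm => by
    have := h (mem_support_iff.1 hm)
    rw [P291Z.WtC.wdeg] at this
    omega

theorem Flt_prod {α : Type} (s : Finset α) (l : α → SS B Λ) (t : α → Λ)
    (hl : ∀ p, (l p).IsHomogeneous 1) : ∏ p ∈ s, (l p + C (t p)) ∈ Flt B Λ (s.card + 1) ∧
      ∏ p ∈ s, l p - ∏ p ∈ s, (l p + C (t p)) ∈ Flt B Λ s.card := by
  classical
  induction s using Finset.induction_on with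
  | empty => exact ⟨Flt_hom (isHomogeneous_one _ _), by simp⟩
  | insert a s ha ih =>
    have h1 := Flt_hom (hl a)
    have h2 := Flt_hom (isHomogeneous_C B (t a))
    rw [Finset.prod_insert ha, Finset.prod_insert ha, Finset.card_insert_of_notMem ha]
    refine ⟨?_, ?_⟩
    · have := Flt_mul (add_mem h1 (Flt_mono (by omega) h2)) ih.1
      rwa [add_comm 1] at this
    · have e : l a * ∏ p ∈ s, l p - (l a + C (t a)) * ∏ p ∈ s, (l p + C (t p)) =
          l a * (∏ p ∈ s, l p - ∏ p ∈ s, (l p + C (t p))) -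
            C (t a) * ∏ p ∈ s, (l p + C (t p)) := by ring
      rw [e]
      refine sub_mem ?_ ?_
      · have := Flt_mul h1 ih.2
        rwa [add_comm 1] at this
      · have := Flt_mul h2 ih.1
        rwa [zero_add] at this

variable (Λ) in
/-- Extension of scalars. -/
abbrev io : MvPolynomial B ℂ →+* SS B Λ := MvPolynomial.map (algebraMap ℂ Λ)

variable (Q : QD I E B Λ)

/-- The weights that cross a cut. -/
def crs (U : Finset B) : Finset (E × B × Option B) :=
  Q.Wt.filter (fun p => ¬ (p.2.1 ∈ U ↔ ∃ b ∈ U, p.2.2 = some b))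

/-- The leading form of a cut product. -/
def cut0 (U : Finset B) : MvPolynomial B ℂ := ∏ p ∈ crs Q U, (xo ℂ p.2.2 - X p.2.1)

theorem xo_hom (K : Type) [CommRing K] (p : B × Option B) :
    (xo K p.2 - X p.1 : SS B K).IsHomogeneous 1 := by
  refine IsHomogeneous.sub ?_ (isHomogeneous_X _ _)
  cases p.2 with
  | none => exact isHomogeneous_zero _ _ _
  | some b => exact isHomogeneous_X _ _

theorem cut0_hom (U : Finset B) : (cut0 Q U).IsHomogeneous (crs Q U).card := by
  have := IsHomogeneous.prod (crs Q U) (fun p => (xo ℂ p.2.2 - X p.2.1 : SS B ℂ)) (fun _ => 1)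
    fun p _ => xo_hom ℂ p.2
  rwa [Finset.sum_const, smul_eq_mul, mul_one] at this

theorem io_cut0 (U : Finset B) : io Λ (cut0 Q U) - Q.cut U ∈ Flt B Λ (crs Q U).card := by
  have e : io Λ (cut0 Q U) = ∏ p ∈ crs Q U, (xo Λ p.2.2 - X p.2.1) := by
    rw [cut0, map_prod]
    refine Finset.prod_congr rfl fun p _ => ?_
    rw [map_sub, map_X]
    cases p.2.2 with
    | none => exact congrArg (· - _) (map_zero _)
    | some b => exact congrArg (· - _) (map_X _ _)
  rw [e]
  exact (Flt_prod (crs Q U) _ (fun p => Q.t p.1) fun p => xo_hom Λ p.2).2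

theorem exists_pow (b : B) : ∃ N, (X b : MvPolynomial B ℂ) ^ N ∈
    Ideal.span {f | ∃ U : Finset B, U.Nonempty ∧ f = cut0 Q U} := by
  classical
  change X b ∈ Ideal.radical _
  rw [← vanishingIdeal_zeroLocus_eq_radical (K := ℂ), mem_vanishingIdeal_iff]
  intro x hx
  rw [aeval_X]
  by_contra hb
  let U := Finset.univ.filter fun c => x c = x b
  have hU : ∀ c, c ∈ U ↔ x c = x b := fun c => by simp [U]
  refine absurd (hx _ (Ideal.subset_span ⟨U, ⟨b, (hU b).2 rfl⟩, rfl⟩)) ?_
  rw [cut0, map_prod]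
  refine Finset.prod_ne_zero_iff.2 fun p hp h => (Finset.mem_filter.1 hp).2 ?_
  rw [map_sub, aeval_X, sub_eq_zero] at h
  rw [hU]
  obtain ⟨a, r, s⟩ := p
  cases s with
  | none =>
    have h0 : x r = 0 := h.symm.trans (map_zero _)
    simp only [reduceCtorEq, and_false, exists_false, iff_false]
    exact fun e => hb (e.symm.trans h0)
  | some s =>
    have h0 : x s = x r := (aeval_X x s).symm.trans h
    simp only [Option.some.injEq, exists_eq_right', hU, h0]

/-- Polynomials of degree less than `n` modulo the cut products. -/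
def VV (n : ℕ) : Submodule Λ (SS B Λ) := Flt B Λ n ⊔ Q.IT.restrictScalars Λ

theorem VV_mul {a n : ℕ} {f g : SS B Λ} (hf : f ∈ Flt B Λ (a + 1)) (hg : g ∈ VV Q n) :
    f * g ∈ VV Q (a + n) := by
  obtain ⟨u, hu, v, hv, rfl⟩ := Submodule.mem_sup.1 hg
  rw [mul_add]
  exact add_mem (Submodule.mem_sup_left (Flt_mul hf hu))
    (Submodule.mem_sup_right (Q.IT.mul_mem_left f hv))

theorem comp_mem {f : MvPolynomial B ℂ}
    (hf : f ∈ Ideal.span {f | ∃ U : Finset B, U.Nonempty ∧ f = cut0 Q U}) (g : MvPolynomial B ℂ)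
    (N : ℕ) : io Λ (homogeneousComponent N (g * f)) ∈ VV Q N := by
  induction hf using Submodule.span_induction generalizing g with
  | zero => rw [mul_zero, map_zero, map_zero]; exact zero_mem _
  | add x y _ _ hx hy => rw [mul_add, map_add, map_add]; exact add_mem (hx g) (hy g)
  | smul c x _ hx => rw [smul_eq_mul, ← mul_assoc]; exact hx _
  | mem x hx =>
    obtain ⟨U, hU, rfl⟩ := hx
    rw [← sum_homogeneousComponent g, Finset.sum_mul, map_sum, map_sum]
    refine sum_mem fun i _ => ?_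
    have h1 := homogeneousComponent_isHomogeneous i g
    rw [homogeneousComponent_of_mem (h1.mul (cut0_hom Q U))]
    split_ifs with h
    · rw [h, map_mul]
      refine VV_mul Q (Flt_hom (h1.map _)) ?_
      rw [← sub_add_cancel (io Λ (cut0 Q U)) (Q.cut U)]
      exact add_mem (Submodule.mem_sup_left (io_cut0 Q U))
        (Submodule.mem_sup_right (Ideal.subset_span ⟨U, hU, rfl⟩))
    · rw [map_zero]
      exact zero_mem _

theorem exists_pow_VV : ∃ N : B → ℕ, ∀ b, (X b : SS B Λ) ^ N b ∈ VV Q (N b) := by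
  choose N hN using exists_pow Q
  refine ⟨N, fun b => ?_⟩
  have := comp_mem Q (hN b) 1 (N b)
  rwa [one_mul, homogeneousComponent_of_mem (isHomogeneous_X_pow b (N b)), if_pos rfl, map_pow,
    map_X] at this

theorem exists_VV_top : ∃ K, ∀ f, f ∈ VV Q K := by
  obtain ⟨N, hN⟩ := exists_pow_VV Q
  have key : ∀ n, Flt B Λ n ≤ VV Q (∑ b, N b + 1) := by
    intro n
    induction n with
    | zero => exact (Flt_mono (Nat.zero_le _)).trans le_sup_left
    | succ n ih =>
      intro f hf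
      rw [f.as_sum]
      refine sum_mem fun m hm => ?_
      have h1 := mem_Flt.1 hf m hm
      by_cases h : ∀ b, m b < N b
      · refine Submodule.mem_sup_left (Flt_mono ?_ (Flt_hom (isHomogeneous_monomial _ rfl)))
        rw [Finsupp.degree_eq_sum]
        exact Nat.succ_le_succ (Finset.sum_le_sum fun b _ => (h b).le)
      · obtain ⟨b, hb⟩ := not_forall.1 h
        obtain ⟨u, rfl⟩ := exists_add_of_le (Finsupp.single_le_iff.2 (not_lt.1 hb))
        rw [add_comm (Finsupp.single _ _), monomial_add_single]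
        rw [map_add, Finsupp.degree_single] at h1
        refine (sup_le ((Flt_mono ?_).trans ih) le_sup_right : VV Q (u.degree + N b) ≤ _)
          (VV_mul Q (Flt_hom (isHomogeneous_monomial _ rfl)) (hN b))
        omega
  exact ⟨_, fun f => key (f.totalDegree + 1) (mem_Flt.2 fun m hm =>
    Nat.lt_succ_of_le (le_totalDegree hm))⟩

theorem finite_IT : Module.Finite Λ (SS B Λ ⧸ Q.IT) := by
  obtain ⟨K, hK⟩ := exists_VV_top Q
  refine Module.Finite.of_surjective ((Ideal.Quotient.mkₐ Λ Q.IT).toLinearMap ∘ₗ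
    (restrictTotalDegree B Λ K).subtype) fun y => ?_
  obtain ⟨f, rfl⟩ := Ideal.Quotient.mk_surjective y
  obtain ⟨u, hu, v, hv, rfl⟩ := Submodule.mem_sup.1 (hK f)
  refine ⟨⟨u, (mem_restrictTotalDegree _ _ _).2 (Finset.sup_le fun m hm =>
    (mem_Flt.1 hu m hm).le)⟩, (Ideal.Quotient.eq.2 ?_).symm⟩
  change u + v - u ∈ _
  rwa [add_sub_cancel_left]

/-- Finitely many invariants generate `R` modulo `J_D`. -/
theorem exists_gens [IsNoetherianRing Λ] : ∃ G : Submodule Λ (SS B Λ), G.FG ∧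
    G ≤ Q.R.toSubmodule ∧ ∀ r ∈ Q.R, ∃ g ∈ G, r - g ∈ Q.JD := by
  haveI := finite_IT Q
  let μ : SS B Λ →ₗ[Λ] SS B Λ ⧸ Q.IT :=
    (Ideal.Quotient.mkₐ Λ Q.IT).toLinearMap ∘ₗ LinearMap.mulLeft Λ Q.D
  obtain ⟨t, ht⟩ := IsNoetherian.noetherian (Q.R.toSubmodule.map μ)
  choose g h1 h2 using fun y : t => (ht.le (Submodule.subset_span y.2) : _ ∈ _)
  refine ⟨Submodule.span Λ (Set.range g), Submodule.fg_span (Set.finite_range g),
    Submodule.span_le.2 (by rintro _ ⟨y, rfl⟩; exact h1 y), fun r hr => ?_⟩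
  have h3 : Submodule.span Λ (t : Set _) ≤ (Submodule.span Λ (Set.range g)).map μ :=
    Submodule.span_le.2 fun y hy => ⟨_, Submodule.subset_span ⟨⟨y, hy⟩, rfl⟩, h2 _⟩
  obtain ⟨u, hu, e⟩ := h3 (ht.ge ⟨r, hr, rfl⟩)
  refine ⟨u, hu, sub_mem hr ((Submodule.span_le.2 (by rintro _ ⟨y, rfl⟩; exact h1 y) :
    _ ≤ Q.R.toSubmodule) hu), ?_⟩
  rw [mul_sub]
  exact Ideal.Quotient.eq.1 e.symm

end Vale.Agent.N291

end
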