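import Vale.Agent.N291.Model

/-!
# The theorem in the terms of the statement
-/

set_option linter.all false

noncomputable section

namespace Vale.Agent.N291

open Set Function Vale.Agent.P291Y Dat
open P291Z (HG HGdeg)
open P291G (XA KirA)

attribute [local instance] Qv.fV Qv.fA Dat.fF P291Z.Ln.grp P291Z.Ln.mod P291Z.Ln.top P291Z.Ln.act

variable {D : Dat} {ν : D.qv.Vx → ℤ}

variable (D ν) in
/-- The same data with the character `ν`. -/
def wn : Dat := { D with nu := ν }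

theorem ev_zero (p : D.Nd) : D.ev p (0 : D.toH.NN) = 0 :=
  map_zero (P291Z.Flav.lf (A := D.toH) p)

theorem pol_C (c : ℂ) : Pol D (.C c) = fun _ => c := funext fun z => by
  rw [Pol, MvPolynomial.eval₂_C, RingHom.id_apply]

theorem pol_X (l : D.Nd × D.Nc) : Pol D (.X l) = fun z => D.ev l.1 z.1 + D.ev z.2 l.2 :=
  funext fun z => by rw [Pol, MvPolynomial.eval₂_X]

theorem pol_add (p q) : Pol D (p + q) = fun z => Pol D p z + Pol D q z := funext fun z => by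
  rw [Pol, MvPolynomial.eval₂_add, Pol, Pol]

theorem pol_mul (p q) : Pol D (p * q) = fun z => Pol D p z * Pol D q z := funext fun z => by
  rw [Pol, MvPolynomial.eval₂_mul, Pol, Pol]

theorem ev_zero' (x : D.Nc) : D.ev (P291Z.Flav.ofLf D.toH 0) x = 0 := rfl

theorem pol_iff (f : D.Tp → ℂ) : D.IsPol f ↔ ∃ P, f = Pol D P := by
  constructor
  · intro h
    induction h with
    | cst c => exact ⟨_, (pol_C c).symm⟩
    | fst q => exact ⟨_, ((pol_X (q, (0 : D.toH.NN))).trans (funext fun z =>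
        (congrArg (D.ev q z.1 + ·) (ev_zero z.2)).trans (add_zero _))).symm⟩
    | snd y => exact ⟨_, ((pol_X (P291Z.Flav.ofLf D.toH 0, y)).trans (funext fun z =>
        (congrArg (· + D.ev z.2 y) (ev_zero' z.1)).trans (zero_add _))).symm⟩
    | add f f' _ _ h h' =>
      obtain ⟨p, rfl⟩ := h
      obtain ⟨p', rfl⟩ := h'
      exact ⟨_, (pol_add p p').symm⟩
    | mul f f' _ _ h h' =>
      obtain ⟨p, rfl⟩ := h
      obtain ⟨p', rfl⟩ := h'
      exact ⟨_, (pol_mul p p').symm⟩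
  · rintro ⟨p, rfl⟩
    induction p using MvPolynomial.induction_on with
    | C c => exact (congrArg D.IsPol (pol_C c)).mpr (.cst c)
    | add p q hp hq => exact (congrArg D.IsPol (pol_add p q)).mpr (.add _ _ hp hq)
    | mul_X p l hp =>
      exact (congrArg D.IsPol (pol_mul p _)).mpr (.mul _ _ hp
        ((congrArg D.IsPol (pol_X l)).mpr (.add _ _ (.fst l.1) (.snd l.2))))

theorem ss_iff (z : Tq D) : Ss D ν z ↔ (wn D ν).GSS z :=
  and_congr_right fun _ => exists_congr fun _ => ⟨fun ⟨P, h1, h2, h3⟩ =>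
    ⟨_, h1, ⟨(pol_iff (D := wn D ν) _).2 ⟨P, rfl⟩, h3⟩, h2⟩, fun ⟨f, h1, ⟨h2, h3⟩, h4⟩ => by
      obtain ⟨P, rfl⟩ := (pol_iff (D := wn D ν) _).1 h2
      exact ⟨P, h1, h4, h3⟩⟩

theorem reg_of (h : Fre D ν) : (wn D ν).Regular :=
  P291G.regular_of (P291G.greg_iff.2 fun z g a => h z g ((ss_iff z).2 a))

theorem ss_eq (h : Fre D ν) : Ss D ν = fun z => D.Mu z.1 z.2 ∧ Qv.St ν z.1 (D.ev z.2) :=
  funext fun z => propext ((ss_iff z).trans ((P291G.king_ss (D := wn D ν) z).trans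
    (and_congr_right fun a => (reg_of h z.1 z.2 a).1)))

theorem fre_of_gen (h : Gen D ν) : Fre D ν := fun z g a => by
  obtain ⟨h1, h2⟩ := (P291G.king_ss (D := wn D ν) z).1 ((ss_iff z).1 a)
  refine P291G.free_st (D := wn D ν) z g ((P291G.king_st (D := wn D ν) z).2 ⟨h1,
    (P291Z.KN.stR_cast ν (P291G.pp (D := wn D ν) z)).1
      (((P291Z.KN.ssR_cast ν (P291G.pp (D := wn D ν) z)).2 h2).stR fun d h3 h4 h5 => ?_)⟩)
  refine h d h3 (Function.ne_iff.1 h4) ?_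
  have : ((∑ i, ν i * (d i : ℤ) : ℤ) : ℝ) = 0 := by
    push_cast
    exact h5
  exact Int.cast_eq_zero.1 this

theorem flav_eq (a : D.Fl) (M : ℕ) : flav D a M = raw (X := Bo D.p1 M) (P291Z.euler (H := D.GH)
    (fun _ : Unit × P291Z.EE D.dn.dm M => (0 : P291Z.Ln (chA D.qv.toH a)))
      fun h _ => (smul_zero h).symm) :=
  euler_eq (H := D.GH) (Z := Unit) (W := P291Z.Ln (chA D.qv.toH a))
    (P := P291Z.EE D.dn.dm M) (fun _ _ => 0) fun h _ => (smul_zero h).symm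

theorem fc_flav (a : D.Fl) : fc (n := D.dn) (Z := Unit) (flav D a) =
    (P291Z.eu (P291Z.isRep_Ln (chA D.qv.toH a) (continuous_chA a))).1 := funext fun M =>
  (congrArg (rc (X := Bo D.p1 M)) (flav_eq a M)).trans (rc_raw _)

theorem flav_deg (a : D.Fl) : IsHG D.p1 2 (flav D a) := by
  have hr := P291Z.isRep_Ln (chA D.qv.toH a) (continuous_chA a)
  exact isHG_of (n := D.dn) (Z := Unit)
    (fun M => (congrArg Closed (flav_eq a M)).mpr
      (closed_raw.2 (P291Z.euler_cocycle (Z := Unit) (P := P291Z.EE D.dn.dm M) hr _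
        continuous_const)))
    (fun M => (congrArg (IsDeg 2) (flav_eq a M)).mpr (deg_raw.2
      (P291Z.isDeg_euler (Z := Unit) (P := P291Z.EE D.dn.dm M) hr _)))
    (fc_flav a) (hg_compat _)

theorem psi_flav (a : D.Fl) :
    P291Z.psi D.qv.toH D.Fl (D.hp (flav D a)) = MvPolynomial.C (MvPolynomial.X a) :=
  (congrArg _ (hc_eq (n := D.dn) (Z := Unit) (fc_flav a))).trans (psi_eu a)

theorem exists_coul (D : Dat) : ∃ (R A : CommAlgCat.{0} ℂ) (_ : Algebra R A) (cr : _) (cls : _),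
    Coul D R A cr cls := by
  classical
  obtain ⟨W⟩ := P291Z.exists_wts D.toH
  refine ⟨.of ℂ (Rpt D), .of ℂ D.toH.AA, RingHom.toAlgebra (R := Rpt D) (P291Z.Flav.coefR W), D.hp,
    D.cA, isCoh_pt D, D.isCoul, fun k r hr => ?_⟩
  obtain ⟨b, h4, h5, -⟩ := P291Z.Flav.coefA_final (A := D.toH) k _ (hp_deg hr)
  exact ⟨fam (p := D.p0) b, an_fam _, (capRel_hc hr).2 h4, h5.trans (cA_fam (p := D.p0) b).symm⟩

theorem hg_gen {n : Dim} {Z : Type} [TopologicalSpace Z] [MulAction (P291Z.GG n.dm) Z]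
    (P : HG n.dm Z → Prop) (x : HG n.dm Z) (h0 : P 0) (h1 : ∀ a b, P a → P b → P (a + b))
    (h : ∀ a, (∃ k c, IsHG (hg n Z) k c ∧ hc c = a) → P a) : P x :=
  HG_induction x h0 h1 fun k y hy => h y ⟨k, exists_hc hy⟩

variable {R H A : Type} [CommRing R] [CommRing H] [CommRing A] [Algebra ℂ R] [Algebra ℂ H]
  [Algebra ℂ A] [Algebra R A] {cr : CG D.p1 → R} {cls : ∀ p : D.Pa, AF p → A}

variable (cr cls) in
/-- Isomorphisms of the models with `R` and `A`. -/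
structure Iso where
  /-- the isomorphism with `R` -/
  eR : Rpt D ≃+* R
  /-- the isomorphism with `A` -/
  eA : D.toH.AA ≃+* A
  hR : ∀ k c, IsHG D.p1 k c → eR (D.hp c) = cr c
  sR : ∀ z, eR (algebraMap ℂ (Rpt D) z) = algebraMap ℂ R z
  hA : ∀ p k β, An p k β → eA (D.cA p β) = cls p β
  cm : ∀ r, algebraMap R A (eR r) = eA (D.toH.coefA r)

theorem exists_iso (h : Coul D R A cr cls) : Nonempty (Iso cr cls) := by
  obtain ⟨eR, h1, h2⟩ := exists_coh_equiv (n := D.dn) (Z := Unit) h.1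
  obtain ⟨eA, h3, -⟩ := exists_coul_equiv h.2.1
  refine ⟨⟨eR, eA, h1, h2, h3, ext_of_gen ((algebraMap R A).toAddMonoidHom.comp eR.toAddMonoidHom)
    (eA.toAddMonoidHom.comp D.toH.coefA) _ (hg_gen (n := D.dn) (Z := Unit)) ?_⟩⟩
  rintro _ ⟨k, c, hc, rfl⟩
  obtain ⟨β, h4, h5, h6⟩ := h.2.2 k c hc
  obtain ⟨b, rfl⟩ := h4.exists
  exact (congrArg (algebraMap R A) (h1 k c hc)).trans (h6.trans ((h3 _ _ _ h4).symm.trans
    (congrArg eA ((cA_fam b).trans (P291Z.Flav.coefA_spec ((capRel_hc hc).1 h5)).symm))))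

theorem Iso.cl_eq (e : Iso cr cls) (S : D.Pa → Prop) :
    D.Cl A cls S = e.eA '' D.Cl D.toH.AA D.cA S :=
  Set.ext fun _ => ⟨fun ⟨p, k, β, h1, h2, h3⟩ =>
    ⟨_, ⟨p, k, β, h1, h2, rfl⟩, (e.hA p k β h2).trans h3.symm⟩,
    fun ⟨_, ⟨p, k, β, h1, h2, h3⟩, h4⟩ =>
      ⟨p, k, β, h1, h2, h4.symm.trans ((congrArg e.eA h3).trans (e.hA p k β h2))⟩⟩

theorem Iso.deg_eq (e : Iso cr cls) (k : ℤ) : {a | ∃ p β, An p k β ∧ a = cls p β} =
    e.eA '' {a | ∃ p β, An p k β ∧ a = D.cA p β} :=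
  Set.ext fun _ => ⟨fun ⟨p, β, h2, h3⟩ => ⟨_, ⟨p, β, h2, rfl⟩, (e.hA p k β h2).trans h3.symm⟩,
    fun ⟨_, ⟨p, β, h2, h3⟩, h4⟩ =>
      ⟨p, β, h2, h4.symm.trans ((congrArg e.eA h3).trans (e.hA p k β h2))⟩⟩

theorem JN_model : JN D ν D.toH.AA D.cA = D.toH.JJ ν := P291Z.Flav.JJ_eq_span fun _ => mem_Cl

theorem JT_model (hν : D.toH.Regular ν) : D.toH.JJ ν = JT D D.toH.AA D.cA :=
  JJ_eq_all hν fun _ => mem_Cl

theorem Iso.JN_eq (e : Iso cr cls) (hν : D.toH.Regular ν) : JN D ν A cls = JT D A cls :=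
  span_congr e.eA (e.cl_eq _) (e.cl_eq _) (JN_model.trans (JT_model hν))

theorem Iso.exists_q (e : Iso cr cls) (ν : D.qv.Vx → ℤ) : ∃ q : D.toH.CY ν ≃+* A ⧸ JN D ν A cls,
    ∀ a, q (Ideal.Quotient.mk _ a) = Ideal.Quotient.mk _ (e.eA a) := by
  obtain ⟨q, hq⟩ := exists_quot e.eA _ _ (e.cl_eq fun p => dot _ ν p.ch ≠ 0)
  exact ⟨(Ideal.quotEquivOfEq JN_model.symm).trans q, hq⟩

theorem psi_aeval (c : MvPolynomial D.Fl ℂ) : P291Z.psi D.qv.toH D.Fl
    (MvPolynomial.aeval (S₁ := Rpt D) (fun a => D.hp (flav D a)) c) = MvPolynomial.C c := by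
  let ψ : Rpt D →+* P291.SS D.qv.toH.qd.Col (P291Z.LF D.Fl) := P291Z.psi D.qv.toH D.Fl
  refine RingHom.congr_fun (f := ψ.comp (MvPolynomial.aeval (R := ℂ) (S₁ := Rpt D)
    fun a => D.hp (flav D a)).toRingHom) (g := MvPolynomial.C)
    (MvPolynomial.ringHom_ext (fun z => ?_) fun a => ?_) c
  · exact (congrArg ψ (MvPolynomial.aeval_C _ z)).trans (psi_sc z)
  · exact (congrArg ψ (MvPolynomial.aeval_X _ a)).trans (psi_flav a)

theorem Iso.fr (e : Iso cr cls) (hν : D.toH.Regular ν) :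
    Fr R (A ⧸ JN D ν A cls) D.Fl fun a => cr (flav D a) := by
  classical
  obtain ⟨W⟩ := P291Z.exists_wts D.toH
  obtain ⟨φ, h1, h2, h3, -⟩ := P291Z.Flav.coul_final W hν
  obtain ⟨n, b, h4, h5, h6⟩ := free_cq (Q := D.qv.toH) W.χ
  obtain ⟨b', hb⟩ := bij_of_basis (R := Rpt D) (MvPolynomial.aeval (R := ℂ) (S₁ := Rpt D)
    fun a => D.hp (flav D a)).toRingHom (P291Z.psi D.qv.toH D.Fl) φ _ _ psi_aeval
    (fun _ => P291Z.mem_range_psi W.χ) h2 h3 b h4 h5 h6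
  obtain ⟨q, hq⟩ := e.exists_q ν
  exact (congrArg (Fr R _ D.Fl) (funext fun a => e.hR _ _ (flav_deg a))).mp
    (fr_of e.eR e.sR φ q (fun r => (congrArg (Ideal.Quotient.mk _) (e.cm r)).trans
      ((hq _).symm.trans (congrArg q (h1 r).symm))) h2 _ b' hb)

variable (D) in
/-- The Higgs side for a given action on the orbit space. -/
def HiggsA (Z : SG D.nn) (a : GG D.nF → orb (D.ZS Z) → orb (D.ZS Z)) (R H : Type) [CommRing R]
    [CommRing H] [Algebra ℂ H] [Algebra R H] (cr : CG D.p1 → R) (cl : CG (XA D Z a) → H) : Prop :=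
  IsCoh _ H cl ∧ ∀ k r, IsHG _ k r → ∃ c, IsHG _ k c ∧ KirA D Z a r c ∧ am R H (cr r) = cl c

variable (cr cls) in
/-- The conclusion for a given action on the orbit space. -/
def ConclA (J : Ideal A) (Z : SG D.nn) (a : GG D.nF → orb (D.ZS Z) → orb (D.ZS Z)) : Prop :=
  (∃ (H : CommAlgCat.{0} ℂ) (_ : Algebra R H) (cl : _), HiggsA D Z a R H cr cl) ∧
    ∀ (H : CommAlgCat.{0} ℂ) [Algebra R H] cl, HiggsA D Z a R H cr cl →
      GrIso R H A J (fun k h => ∃ c, IsHG _ k c ∧ h = cl c)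
        fun k a => ∃ p β, An p (-k) β ∧ a = cls p β

variable (D ν) in
/-- The stable locus. -/
abbrev Z0 : SG D.nn := hg D.dn (D.toH.Zst ν)

variable (D ν) in
/-- The quiver variety. -/
abbrev X0 : SG D.nF := hg (dF D.Fl) (D.toH.XX ν)

/-- The class of a family on the quiver variety. -/
def hx0 (c : CG (X0 D ν)) : D.toH.HX ν := hc (n := dF D.Fl) (Z := D.toH.XX ν) c

theorem kir_iff {k k' : ℤ} {r : CG D.p1} {c : CG (X0 D ν)} (hr : IsHG D.p1 k r)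
    (hc : IsHG (X0 D ν) k' c) :
    KirA D (Z0 D ν) (X0 D ν).act r c ↔ D.toH.IsKirwan ν (D.hp r) (hx0 c) :=
  kirwan_iff' D.toH ν hr hc

theorem Iso.exists_higgs (e : Iso cr cls) (hν : D.toH.Regular ν) :
    ∃ (H : CommAlgCat.{0} ℂ) (_ : Algebra R H) (cl : _),
      HiggsA D (Z0 D ν) (X0 D ν).act R H cr cl := by
  classical
  obtain ⟨W⟩ := P291Z.exists_wts D.toH
  obtain ⟨-, -, -, ε, he, hd⟩ := P291Z.Flav.heavy _ D.toH ν hν
  refine ⟨.of ℂ (D.toH.CY ν), RingHom.toAlgebra (((Ideal.Quotient.mk _).comp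
    (P291Z.Flav.coefR W)).comp e.eR.symm.toRingHom), fun c => ε (hx0 c),
    isCoh_of (n := dF D.Fl) (Z := D.toH.XX ν) ε fun z =>
      (P291Z.Flav.e_cstG hν he z).trans (Algebra.algebraMap_eq_smul_one z), fun k r hr => ?_⟩
  obtain ⟨c, h7, h8⟩ := exists_hc (n := dF D.Fl) (Z := D.toH.XX ν) ((hd k (D.toH.phiH ν (D.hp r))).2
    ⟨_, P291Z.Flav.coefA_mem_Adeg (hp_deg hr), he _⟩)
  exact ⟨c, h7, (kir_iff hr h7).2 ((congrArg (D.toH.IsKirwan ν (D.hp r)) h8).mpr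
    (P291Z.Flav.phiH_spec hν _)), (congrArg (D.toH.phiC ν)
      (e.eR.symm_apply_eq.2 (e.hR k r hr).symm)).trans ((congrArg ε h8).trans (he _)).symm⟩

theorem Iso.grIso (e : Iso cr cls) (hν : D.toH.Regular ν) [Algebra R H] {cl : CG (X0 D ν) → H}
    (h : HiggsA D (Z0 D ν) (X0 D ν).act R H cr cl) :
    GrIso R H A (JN D ν A cls) (fun k h => ∃ c, IsHG _ k c ∧ h = cl c)
      fun k a => ∃ p β, An p (-k) β ∧ a = cls p β := by
  classical
  obtain ⟨W⟩ := P291Z.exists_wts D.toH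
  obtain ⟨-, -, -, ε, he, hd⟩ := P291Z.Flav.heavy _ D.toH ν hν
  obtain ⟨φ, h1, -⟩ := P291Z.Four.higgs_final W hν
  obtain ⟨eH, h2⟩ : ∃ eH : D.toH.HX ν ≃+* H, ∀ k c, IsHG (X0 D ν) k c → eH (hx0 c) = cl c :=
    exists_coh_equiv' (n := dF D.Fl) (Z := D.toH.XX ν) h.1
  obtain ⟨q, hq⟩ := e.exists_q ν
  refine grIso_of e.eR eH e.eA φ D.toH.coefA (ext_of_gen
    ((algebraMap R H).toAddMonoidHom.comp e.eR.toAddMonoidHom)
    (eH.toAddMonoidHom.comp φ.toAddMonoidHom) _ (hg_gen (n := D.dn) (Z := Unit)) ?_) e.cm q hq ε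
    (fun r => (congrArg ε (h1 r)).trans (he r)) (fun k => {x | x.1 ∈ HGdeg _ _ k})
    (fun k => {a | ∃ p β, An p (-k) β ∧ a = D.cA p β}) (fun k x => ⟨?_, fun hx => ?_⟩)
    (fun k => e.deg_eq (-k)) fun k x => (hd k x).trans
      (exists_congr fun a => and_congr_left' mem_Adeg.symm)
  · rintro _ ⟨k, r, hr, rfl⟩
    obtain ⟨c, h3, h4, h5⟩ := h.2 k r hr
    exact (congrArg (algebraMap R H) (e.hR k r hr)).trans (h5.trans ((h2 k c h3).symm.trans
      (congrArg eH ((h1 _).trans (P291Z.Flav.phiH_eq hν ((kir_iff hr h3).1 h4))).symm)))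
  · rintro ⟨c, h3, h4⟩
    exact eH.injective (h4.trans (h2 k c h3).symm) ▸
      IsHG.hc_deg (n := dF D.Fl) (Z := D.toH.XX ν) h3
  · obtain ⟨c, h3, rfl⟩ := exists_hc (n := dF D.Fl) (Z := D.toH.XX ν) hx
    exact ⟨c, h3, h2 k c h3⟩

theorem Iso.concl0 (e : Iso cr cls) (hν : D.toH.Regular ν) :
    ConclA cr cls (JN D ν A cls) (Z0 D ν) (XZ D (Z0 D ν)).act := by
  have h : (XZ D (Z0 D ν)).act = (X0 D ν).act :=
    funext fun f => funext fun q => congrArg ((X0 D ν).act f) (Quot.out_eq q)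
  have : ConclA cr cls (JN D ν A cls) (Z0 D ν) (X0 D ν).act :=
    ⟨e.exists_higgs hν, fun H _ cl h => e.grIso hν h⟩
  exact h ▸ this

theorem Iso.concl (e : Iso cr cls) (hν : D.toH.Regular ν) (S : Tq D → Prop)
    (h : S = fun z => D.Mu z.1 z.2 ∧ Qv.St ν z.1 (D.ev z.2)) :
    ∃ (h : Inv (TN D) S) (Z : SG D.nn), Z = sub (TN D) S h ∧
      ConclA cr cls (JN D ν A cls) Z (XZ D Z).act := by
  subst h
  exact ⟨(wn D ν).h2, Z0 D ν, rfl, e.concl0 hν⟩

theorem final (D : Dat) : (∀ ν, Gen D ν → Fre D ν) ∧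
    (∃ (R A : CommAlgCat.{0} ℂ) (_ : Algebra R A) (cr : _) (cls : _), Coul D R A cr cls) ∧
    ∀ (R A : CommAlgCat.{0} ℂ) [Algebra R A] cr cls, Coul D R A cr cls →
      ∀ ν, Fre D ν → ∃ h, Hik D (sub (TN D) (Ss D ν) h) R A cr cls (JN D ν A cls) := by
  refine ⟨fun _ => fre_of_gen, exists_coul D, fun R A _ cr cls h ν hν => ?_⟩
  obtain ⟨e⟩ := exists_iso h
  have h1 : D.toH.Regular ν := regular (reg_of hν)
  obtain ⟨h2, Z, rfl, h4⟩ := e.concl h1 _ (ss_eq hν)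
  exact ⟨h2, h4.1, h4.2, e.JN_eq h1, e.fr h1⟩

end Vale.Agent.N291

end
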