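import Vale.Agent.N291.Fin
import Vale.Agent.P291.H4b

/-!
# `R / J_C` is free of finite rank over the flavour parameters
-/

set_option linter.all false

noncomputable section

namespace Vale.Agent.N291

open MvPolynomial Vale.Agent.P291 Vale.Agent.P291Z

variable {I E B Λ Λ' : Type} [Fintype E] [DecidableEq I] [Fintype B] [DecidableEq B] [CommRing Λ]
  [IsDomain Λ] [Algebra ℂ Λ] [CommRing Λ'] [IsDomain Λ'] [Algebra ℂ Λ']

/-- Change of the coefficients. -/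
def spc (Q : QD I E B Λ') (φ : Λ' →ₐ[ℂ] Λ) : QD I E B Λ :=
  ⟨Q.src, Q.tgt, Q.vx, fun a => φ (Q.t a)⟩

/-- `J_C` as a submodule. -/
def JCs (Q : QD I E B Λ) : Submodule Λ (SS B Λ) :=
  ⟨⟨⟨Q.JC, H4.JC_add Q⟩, H4.JC_zero Q⟩, fun c _ => H4.JC_smul Q c⟩

theorem spc_rel (Q : QD I E B Λ') (φ : Λ' →ₐ[ℂ] Λ) : (spc Q φ).src = Q.src ∧
    (spc Q φ).tgt = Q.tgt ∧ (spc Q φ).vx = Q.vx ∧
      ∀ a, (spc Q φ).t a = (φ : Λ' →+* Λ) (Q.t a) := ⟨rfl, rfl, rfl, fun _ => rfl⟩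

theorem spc_JC (Q : QD I E B Λ') (φ : Λ' →ₐ[ℂ] Λ) {f : SS B Λ'} (hf : f ∈ Q.JC) :
    map (φ : Λ' →+* Λ) f ∈ (spc Q φ).JC := JC_map (spc Q φ) Q φ (spc_rel Q φ) hf

theorem spc_lift [Algebra ℚ Λ] [Algebra ℚ Λ'] (Q : QD I E B Λ') (hQ : Q.NonzeroLoops)
    (φ : Λ' →ₐ[ℂ] Λ) (hφ : Function.Surjective φ) {f : SS B Λ} (hf : f ∈ (spc Q φ).JC) :
    ∃ j ∈ JCs Q, map (φ : Λ' →+* Λ) j = f := JC_lift (spc Q φ) Q hQ φ hφ (spc_rel Q φ) hf

theorem JCs_le (Q : QD I E B Λ) {f : SS B Λ} (h : f ∈ JCs Q) : f ∈ Q.R := h.1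

theorem map_R (Q : QD I E B Λ) (Q' : QD I E B Λ') (h : Q.vx = Q'.vx) (φ : Λ' →+* Λ)
    {f : SS B Λ'} (hf : f ∈ Q'.R) : map φ f ∈ Q.R := fun σ hσ => by
  rw [← map_rename, hf σ fun b => h ▸ hσ b]

variable {n : ℕ} (b : Fin n → MvPolynomial B ℂ)

/-- A linear combination. -/
def comb (c : Fin n → Λ) : SS B Λ := ∑ i, c i • io Λ (b i)

theorem map_io (φ : Λ' →ₐ[ℂ] Λ) (f : MvPolynomial B ℂ) :
    map (φ : Λ' →+* Λ) (io Λ' f) = io Λ f := by
  rw [map_map, φ.comp_algebraMap]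

theorem io_id (f : MvPolynomial B ℂ) : io ℂ f = f := MvPolynomial.map_id f

theorem map_comb (φ : Λ' →ₐ[ℂ] Λ) (c : Fin n → Λ') :
    map (φ : Λ' →+* Λ) (comb b c) = comb b fun i => φ (c i) := by
  simp only [comb, map_sum, smul_eq_C_mul, map_mul, map_C, map_io, RingHom.coe_coe]

theorem comb_mul (a : Λ) (c : Fin n → Λ) : comb b (fun i => a * c i) = C a * comb b c := by
  simp only [comb, mul_smul, ← smul_eq_C_mul, Finset.smul_sum]

theorem comb_sub (c c' : Fin n → Λ) : comb b (fun i => c i - c' i) = comb b c - comb b c' := by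
  simp only [comb, sub_smul, Finset.sum_sub_distrib]

theorem comb_add (c c' : Fin n → Λ) : comb b (fun i => c i + c' i) = comb b c + comb b c' := by
  simp only [comb, add_smul, Finset.sum_add_distrib]

theorem mem_span_comb {f : SS B Λ} (h : f ∈ Submodule.span Λ (Set.range fun i => io Λ (b i))) :
    ∃ c, comb b c = f := (Submodule.mem_span_range_iff_exists_fun _).1 h

/-- A homogeneous basis for trivial flavour. -/
theorem exists_basis0 (Q : QD I E B ℂ) (G : Submodule ℂ (SS B ℂ)) (hG : G.FG)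
    (h : ∀ r ∈ Q.R, ∃ g ∈ G, r - g ∈ Q.JC) : ∃ (n : ℕ) (b : Fin n → MvPolynomial B ℂ),
    (∀ i, b i ∈ Q.R ∧ ∃ d, (b i).IsHomogeneous d) ∧ (∀ r ∈ Q.R, ∃ c, r - comb b c ∈ Q.JC) ∧
      ∀ c, comb b c ∈ Q.JC → c = 0 := by
  let π := (JCs Q).mkQ
  obtain ⟨s, h1, h2, h3⟩ := exists_linearIndependent ℂ
    (π '' {f | f ∈ Q.R ∧ ∃ d, f.IsHomogeneous d})
  obtain ⟨t, ht⟩ := hG.map π
  haveI : Finite s := h3.finite_of_le_span_finite _ (t : Set _) (by
    rintro _ ⟨x, rfl⟩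
    obtain ⟨f, hf, e⟩ := h1 x.2
    obtain ⟨g, hg, e'⟩ := h f hf.1
    rw [ht]
    exact ⟨g, hg, ((Submodule.Quotient.eq _).2 e').symm.trans e⟩)
  obtain ⟨m, ⟨ε⟩⟩ := Finite.exists_equiv_fin s
  choose b h4 h5 using fun i : Fin m => h1 (ε.symm i).2
  have h6 : ∀ c, π (comb b c) = ∑ i, c i • (ε.symm i).1 := fun c => by
    simp only [comb, map_sum, map_smul, io_id, h5]
  refine ⟨m, b, h4, fun r hr => ?_, fun c hc => ?_⟩
  · have h7 : π r ∈ Submodule.span ℂ (Set.range fun i => (ε.symm i).1) := by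
      rw [show (Set.range fun i => (ε.symm i).1) = s from
        (ε.symm.surjective.range_comp Subtype.val).trans Subtype.range_coe, h2,
        ← sum_homogeneousComponent r, map_sum]
      exact sum_mem fun i _ => Submodule.subset_span ⟨_, ⟨fun σ hσ => by
        rw [rename_homogeneousComponent, hr σ hσ], i, homogeneousComponent_isHomogeneous i r⟩, rfl⟩
    obtain ⟨c, hc⟩ := (Submodule.mem_span_range_iff_exists_fun _).1 h7
    exact ⟨c, (Submodule.Quotient.eq (JCs Q)).1 (hc.symm.trans (h6 c).symm)⟩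
  · exact funext (Fintype.linearIndependent_iff.1 (h3.comp _ ε.symm.injective) c
      ((h6 c).symm.trans ((Submodule.Quotient.mk_eq_zero (JCs Q)).2 hc)))

/-- Independence over the polynomial ring in one variable. -/
theorem indep_line (Q : QD I E B (Polynomial ℂ)) (hQ : Q.NonzeroLoops)
    (h : ∀ c, comb b c ∈ (spc Q (Polynomial.aeval (0 : ℂ))).JC → c = 0)
    (c : Fin n → Polynomial ℂ) (hc : comb b c ∈ Q.JC) : c = 0 := by
  have key : ∀ (k : ℕ) (c : Fin n → Polynomial ℂ), comb b c ∈ Q.JC →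
      ∀ i, Polynomial.X ^ k ∣ c i := by
    intro k
    induction k with
    | zero => exact fun c _ i => by simp
    | succ k ih =>
      intro c hc
      have h1 := h _ (map_comb b (Polynomial.aeval (0 : ℂ)) c ▸ spc_JC Q (Polynomial.aeval (0 : ℂ)) hc)
      choose d hd using fun i => Polynomial.X_dvd_iff.2 ((Polynomial.coeff_zero_eq_aeval_zero' (A := ℂ) (c i)).trans
        (congrFun h1 i))
      rw [funext hd, comb_mul, JC_eq_JD Q hQ] at hc
      have h2 := JD_sat Q Polynomial.X_ne_zero hc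
      rw [← JC_eq_JD Q hQ] at h2
      exact fun i => by rw [hd i, pow_succ']; exact mul_dvd_mul_left _ (ih d h2 i)
  exact funext fun i => Polynomial.eq_zero_of_dvd_of_natDegree_lt (key _ c hc i)
    (by rw [Polynomial.natDegree_X_pow]; exact Nat.lt_succ_self _)

/-- Averaging over the Weyl group. -/
theorem exists_avg (Q : QD I E B Λ) : ∃ P : SS B Λ →ₗ[Λ] SS B Λ, (∀ f, P f ∈ Q.R) ∧
    ∀ f ∈ Q.R, P f = f := by
  classical
  refine ⟨algebraMap ℂ Λ (Fintype.card Q.W : ℂ)⁻¹ •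
    ∑ σ : Q.W, (rename (σ.1 : B → B)).toLinearMap, fun f τ hτ => ?_, fun f hf => ?_⟩
  · simp only [LinearMap.smul_apply, LinearMap.sum_apply, map_smul, map_sum,
      AlgHom.toLinearMap_apply, rename_rename]
    exact congrArg _ (Fintype.sum_bijective (fun σ => (⟨τ, hτ⟩ : Q.W) * σ)
      (Group.mulLeft_bijective _) _ _ fun _ => rfl)
  · simp only [LinearMap.smul_apply, LinearMap.sum_apply, AlgHom.toLinearMap_apply]
    rw [Finset.sum_congr rfl fun (σ : Q.W) _ => hf σ.1 σ.2, Finset.sum_const, Finset.card_univ,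
      ← Nat.cast_smul_eq_nsmul Λ, smul_smul, ← map_natCast (algebraMap ℂ Λ), ← map_mul,
      inv_mul_cancel₀ (Nat.cast_ne_zero.2 Fintype.card_ne_zero), map_one, one_smul]

theorem mem_smul_R (Q : QD I E B Λ') (φ : Λ' →+* Λ) {f : SS B Λ'} (hf : f ∈ Q.R)
    (h : map φ f = 0) : f ∈ RingHom.ker φ • Q.R.toSubmodule := by
  obtain ⟨P, h1, h2⟩ := exists_avg Q
  rw [← h2 f hf, f.as_sum, map_sum]
  refine sum_mem fun m _ => ?_
  rw [← mul_one (coeff m f), ← smul_eq_mul, ← smul_monomial, map_smul]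
  exact Submodule.smul_mem_smul ((coeff_map φ f m).symm.trans (congrArg (coeff m) h)) (h1 _)

variable {Ψ : Type} [Fintype Ψ]

theorem one_mem_of_stable (J : Ideal (LF Ψ)) (h : ∀ c ∈ J, (scF Ψ).θ c ∈ J) (k : ℕ) :
    ∀ c ∈ J, (∀ m ∈ c.support, m.degree ≤ k) → coeff 0 c ≠ 0 → (1 : LF Ψ) ∈ J := by
  classical
  induction k with
  | zero =>
    intro c hc h1 h2
    have e : c = C (coeff 0 c) := totalDegree_eq_zero_iff_eq_C.1
      (Nat.le_zero.1 (Finset.sup_le fun m hm => h1 m hm))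
    have := J.mul_mem_left (C (coeff 0 c)⁻¹) hc
    rwa [e, coeff_zero_C, ← map_mul, inv_mul_cancel₀ h2, map_one] at this
  | succ k ih =>
    intro c hc h1 h2
    have e : ∀ m, coeff m ((scF Ψ).θ c - C (2 ^ (k + 1)) * c) =
        (2 ^ m.degree - 2 ^ (k + 1)) * coeff m c := fun m => by
      rw [coeff_sub, coeff_C_mul, sub_mul]
      exact congrArg (· - _) (WtC.coeff_sc 2 c m)
    refine ih _ (sub_mem (h c hc) (J.mul_mem_left (C (2 ^ (k + 1))) hc)) (fun m hm => ?_) ?_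
    · rw [mem_support_iff, e, mul_ne_zero_iff] at hm
      have h3 := h1 m (mem_support_iff.2 hm.2)
      exact Nat.le_of_lt_succ (h3.lt_of_ne fun e' => hm.1 (by rw [e', sub_self]))
    · rw [e, map_zero, pow_zero]
      refine mul_ne_zero (sub_ne_zero.2 fun e' => ?_) h2
      have : (1 : ℕ) = 2 ^ (k + 1) := by exact_mod_cast e'
      exact absurd this (Nat.one_lt_two_pow (Nat.succ_ne_zero k)).ne

/-- The value at the origin. -/
abbrev ev0 (Ψ : Type) : LF Ψ →ₐ[ℂ] ℂ := aeval fun _ => 0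

theorem ev0_eq (c : LF Ψ) : ev0 Ψ c = coeff 0 c := aeval_zero' c

theorem ev0_surj : Function.Surjective (ev0 Ψ : LF Ψ →+* ℂ) := fun c => ⟨C c, aeval_C _ c⟩

theorem sS_io {f : MvPolynomial B ℂ} {d : ℕ} (h : f.IsHomogeneous d) :
    (scF Ψ).sS B (io _ f) = (2 : LF Ψ) ^ d • io _ f := by
  have e : ∀ f : MvPolynomial B ℂ, (scF Ψ).sS B (io _ f) =
      io (LF Ψ) (aeval (fun i => (2 : ℂ) • X i : B → MvPolynomial B ℂ) f) := fun f => by
    induction f using MvPolynomial.induction_on with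
    | C c => rw [aeval_C, algebraMap_eq, map_C, Scal.sS_C, AlgEquiv.commutes]
    | add p q hp hq => simp only [map_add, hp, hq]
    | mul_X p i hp =>
      simp only [map_mul, hp, map_X, Scal.sS_X, aeval_X, smul_eq_C_mul, map_ofNat]
  rw [e, WtC.sc_iff.2 h]
  simp only [smul_eq_C_mul, map_mul, map_pow, map_ofNat]

variable (Q : QD I E B (LF Ψ)) (hQ : Q.NonzeroLoops)
include hQ

theorem indep_up (h0 : ∀ c, comb b c ∈ (spc Q (ev0 Ψ)).JC → c = 0) (c : Fin n → LF Ψ)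
    (hc : comb b c ∈ Q.JC) : c = 0 := by
  classical
  by_contra h
  obtain ⟨i, hi⟩ := Function.ne_iff.1 h
  obtain ⟨x, hx⟩ : ∃ x : Ψ → ℂ, eval x (c i * ∏ a ∈ Finset.univ.filter
      (fun a => Q.tgt a = some (Q.src a)), Q.t a) ≠ 0 := by
    by_contra! h1
    exact mul_ne_zero hi (Finset.prod_ne_zero_iff.2 fun a ha => hQ a (Finset.mem_filter.1 ha).2)
      (MvPolynomial.funext fun x => (h1 x).trans (map_zero _).symm)
  rw [map_mul, map_prod, mul_ne_zero_iff, Finset.prod_ne_zero_iff] at hx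
  let φ : LF Ψ →ₐ[ℂ] Polynomial ℂ := aeval fun a => x a • Polynomial.X
  have h1 : ∀ p, φ p = 0 → eval x p = 0 := fun p hp => by
    have e : (Polynomial.aeval (1 : ℂ)).comp φ = aeval x := algHom_ext fun a => by simp [φ]
    rw [← coe_aeval_eq_eval]
    exact (AlgHom.congr_fun e p).symm.trans ((congrArg (Polynomial.aeval (1 : ℂ)) hp).trans (map_zero _))
  have e : (Polynomial.aeval (0 : ℂ)).comp φ = ev0 Ψ := algHom_ext fun a => by simp [φ]
  refine hx.1 (h1 _ (congrFun (indep_line b (spc Q φ) (fun a ha h => hx.2 a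
    (Finset.mem_filter.2 ⟨Finset.mem_univ _, ha⟩) (h1 _ h)) (fun c hc => h0 c ?_) _
    (map_comb b φ c ▸ spc_JC Q φ hc)) i))
  rw [← e]
  exact hc

theorem gens_up : ∃ G : Submodule (LF Ψ) (SS B (LF Ψ)), G.FG ∧
    G ≤ Q.R.toSubmodule ∧ ∀ r ∈ Q.R, ∃ g ∈ G, r - g ∈ JCs Q :=
  (exists_gens Q).imp fun _ h => ⟨h.1, h.2.1, fun r hr => (h.2.2 r hr).imp fun _ h =>
    ⟨h.1, (JC_eq_JD Q hQ).ge h.2⟩⟩

omit hQ in
/-- The span of the basis and `J_C`. -/
def NB : Submodule (LF Ψ) (SS B (LF Ψ)) :=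
  Submodule.span (LF Ψ) (Set.range fun i => io (LF Ψ) (b i)) ⊔ JCs Q

theorem gen_mod (hb : ∀ i, b i ∈ (spc Q (ev0 Ψ)).R)
    (h0 : ∀ r ∈ (spc Q (ev0 Ψ)).R, ∃ c, r - comb b c ∈ (spc Q (ev0 Ψ)).JC) {r : SS B (LF Ψ)}
    (hr : r ∈ Q.R) : r ∈ NB b Q ⊔ RingHom.ker (ev0 Ψ : LF Ψ →+* ℂ) • Q.R.toSubmodule := by
  have hio : ∀ i, io (LF Ψ) (b i) ∈ Q.R := fun i =>
    map_R Q (spc Q (ev0 Ψ)) rfl (algebraMap ℂ (LF Ψ)) (hb i)
  obtain ⟨c, hc⟩ := h0 _ (map_R (spc Q (ev0 Ψ)) Q rfl (ev0 Ψ : LF Ψ →+* ℂ) hr)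
  obtain ⟨j, hj, e⟩ := spc_lift Q hQ (ev0 Ψ) ev0_surj hc
  have h5 : comb b (fun i => (C (c i) : LF Ψ)) ∈
      Submodule.span (LF Ψ) (Set.range fun i => io (LF Ψ) (b i)) :=
    sum_mem fun i _ => Submodule.smul_mem _ _ (Submodule.subset_span ⟨i, rfl⟩)
  have h6 := mem_smul_R Q (ev0 Ψ : LF Ψ →+* ℂ) (f := r - comb b (fun i => C (c i)) - j)
    (sub_mem (sub_mem hr (sum_mem fun i _ => Q.R.smul_mem (hio i) _)) (JCs_le Q hj)) (by
      rw [map_sub, map_sub, e, map_comb]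
      simp only [aeval_C, Algebra.algebraMap_self, RingHom.id_apply, sub_self])
  have e' : r = comb b (fun i => C (c i)) + j + (r - comb b (fun i => C (c i)) - j) := by ring
  rw [e']
  exact add_mem (Submodule.mem_sup_left
    (add_mem (Submodule.mem_sup_left h5) (Submodule.mem_sup_right hj))) (Submodule.mem_sup_right h6)

theorem NB_stable (hL : Q.Lin (scF Ψ)) (hb : ∀ i, ∃ d, (b i).IsHomogeneous d) {f : SS B (LF Ψ)}
    (hf : f ∈ NB b Q) : (scF Ψ).sS B f ∈ NB b Q := by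
  obtain ⟨u, hu, v, hv, rfl⟩ := Submodule.mem_sup.1 hf
  obtain ⟨c, rfl⟩ := mem_span_comb b hu
  rw [map_add, comb, map_sum]
  refine add_mem (Submodule.mem_sup_left (sum_mem fun i _ => ?_)) (Submodule.mem_sup_right ?_)
  · obtain ⟨d, hd⟩ := hb i
    rw [smul_eq_C_mul, map_mul, Scal.sS_C, sS_io hd, ← smul_eq_C_mul]
    exact Submodule.smul_mem _ _ (Submodule.smul_mem _ _ (Submodule.subset_span ⟨i, rfl⟩))
  · exact (JC_eq_JD Q hQ).ge (H2h.JD_stable Q _ hL hQ ((JC_eq_JD Q hQ).le hv))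

theorem exists_ann (hb : ∀ i, b i ∈ (spc Q (ev0 Ψ)).R)
    (h0 : ∀ r ∈ (spc Q (ev0 Ψ)).R, ∃ c, r - comb b c ∈ (spc Q (ev0 Ψ)).JC) :
    ∃ a : LF Ψ, coeff 0 a ≠ 0 ∧ ∀ r ∈ Q.R, a • r ∈ NB b Q := by
  obtain ⟨G, h1, h2, h3⟩ := gens_up Q hQ
  have h7 : RingHom.ker (ev0 Ψ : LF Ψ →+* ℂ) • Q.R.toSubmodule ≤
      NB b Q ⊔ RingHom.ker (ev0 Ψ : LF Ψ →+* ℂ) • G := Submodule.smul_le.2 fun a ha s hs => by
    obtain ⟨g, hg, e⟩ := h3 s hs
    rw [← sub_add_cancel s g, smul_add]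
    exact add_mem (Submodule.mem_sup_left (Submodule.mem_sup_right ((JCs Q).smul_mem a e)))
      (Submodule.mem_sup_right (Submodule.smul_mem_smul ha hg))
  obtain ⟨a, h5, h6⟩ := Submodule.exists_sub_one_mem_and_smul_le_of_fg_of_le_sup h1 h2
    fun r hr => sup_le le_sup_left h7 (gen_mod b Q hQ hb h0 hr)
  refine ⟨a, ?_, fun r hr => h6 (Submodule.smul_mem_pointwise_smul r a _ hr)⟩
  have : ev0 Ψ (a - 1) = 0 := h5
  rw [map_sub, map_one, sub_eq_zero, ev0_eq] at this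
  rw [this]
  exact one_ne_zero

theorem gen_up (hL : Q.Lin (scF Ψ)) (hb : ∀ i, b i ∈ (spc Q (ev0 Ψ)).R ∧ ∃ d, (b i).IsHomogeneous d)
    (h0 : ∀ r ∈ (spc Q (ev0 Ψ)).R, ∃ c, r - comb b c ∈ (spc Q (ev0 Ψ)).JC) :
    ∀ r ∈ Q.R, ∃ c, r - comb b c ∈ JCs Q := by
  obtain ⟨a, h5, h6⟩ := exists_ann b Q hQ (fun i => (hb i).1) h0
  have h8 := one_mem_of_stable ((NB b Q).colon Q.R) (fun c hc => Submodule.mem_colon.2 fun r hr => by
      obtain ⟨s, rfl⟩ := ((scF Ψ).sS B).surjective r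
      rw [smul_eq_C_mul, ← Scal.sS_C, ← map_mul, ← smul_eq_C_mul]
      exact NB_stable b Q hQ hL (fun i => (hb i).2) (Submodule.mem_colon.1 hc s fun σ hσ =>
        ((scF Ψ).sS B).injective ((H2h.sS_rename _ σ s).trans (hr σ hσ)))) a.totalDegree a
    (Submodule.mem_colon.2 h6) (fun m hm => le_totalDegree hm) h5
  intro r hr
  obtain ⟨u, hu, v, hv, e⟩ := Submodule.mem_sup.1 (Submodule.mem_colon.1 h8 r hr)
  obtain ⟨c, rfl⟩ := mem_span_comb b hu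
  refine ⟨c, ?_⟩
  rw [one_smul] at e
  rw [← e, add_sub_cancel_left]
  exact hv

theorem exists_basis_up : ∃ (n : ℕ) (b : Fin n → MvPolynomial B ℂ),
    (∀ i, b i ∈ (spc Q (ev0 Ψ)).R ∧ ∃ d, (b i).IsHomogeneous d) ∧
    (∀ r ∈ (spc Q (ev0 Ψ)).R, ∃ c, r - comb b c ∈ (spc Q (ev0 Ψ)).JC) ∧
      ∀ c, comb b c ∈ (spc Q (ev0 Ψ)).JC → c = 0 := by
  obtain ⟨G, h1, -, h3⟩ := exists_gens Q
  obtain ⟨t, rfl⟩ := h1
  refine exists_basis0 (spc Q (ev0 Ψ))
    (Submodule.span ℂ (map (ev0 Ψ : LF Ψ →+* ℂ) '' (t : Set _)))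
    (Submodule.fg_span (t.finite_toSet.image _)) fun r hr => ?_
  obtain ⟨g, hg, e⟩ := h3 _ (map_R Q (spc Q (ev0 Ψ)) rfl (algebraMap ℂ (LF Ψ)) hr)
  refine ⟨map (ev0 Ψ : LF Ψ →+* ℂ) g, ?_, ?_⟩
  · clear e
    induction hg using Submodule.span_induction with
    | mem x hx => exact Submodule.subset_span ⟨x, hx, rfl⟩
    | zero => rw [map_zero]; exact zero_mem _
    | add x y _ _ hx hy => rw [map_add]; exact add_mem hx hy
    | smul c x _ hx =>
      rw [smul_eq_C_mul, map_mul, map_C, ← smul_eq_C_mul]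
      exact Submodule.smul_mem _ _ hx
  · have := spc_JC Q (ev0 Ψ) ((JC_eq_JD Q hQ).ge e)
    rwa [map_sub, map_io, io_id] at this

/-- `R / J_C` is free of finite rank over the coefficients, for every retract `Λ` of the
coefficient ring of a datum with non-zero loop weights. -/
theorem free_spc [Algebra ℚ Λ] (hL : Q.Lin (scF Ψ)) (φ : LF Ψ →ₐ[ℂ] Λ) (ψ : Λ →ₐ[ℂ] LF Ψ)
    (hφ : ∀ c, φ (ψ c) = c) :
    ∃ (n : ℕ) (b : Fin n → SS B Λ), (∀ i, b i ∈ (spc Q φ).R) ∧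
      (∀ r ∈ (spc Q φ).R, ∃ c : Fin n → Λ, r - ∑ i, c i • b i ∈ (spc Q φ).JC) ∧
      ∀ c : Fin n → Λ, ∑ i, c i • b i ∈ (spc Q φ).JC → c = 0 := by
  obtain ⟨n, b, h4, h5, h6⟩ := exists_basis_up Q hQ
  have h7 := gen_up b Q hQ hL h4 h5
  have h8 := indep_up b Q hQ h6
  have h9 : ∀ r : SS B Λ, map (φ : LF Ψ →+* Λ) (map (ψ : Λ →+* LF Ψ) r) = r := fun r => by
    rw [map_map, show (φ : LF Ψ →+* Λ).comp (ψ : Λ →+* LF Ψ) = RingHom.id _ from
      RingHom.ext hφ, MvPolynomial.map_id]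
  have h10 : ∀ i, io Λ (b i) ∈ (spc Q φ).R := fun i =>
    map_R (spc Q φ) (spc Q (ev0 Ψ)) rfl (algebraMap ℂ Λ) (h4 i).1
  refine ⟨n, fun i => io Λ (b i), h10, fun r hr => ?_, fun c hc => ?_⟩
  · obtain ⟨c, hc⟩ := h7 _ (map_R Q (spc Q φ) rfl (ψ : Λ →+* LF Ψ) hr)
    have := spc_JC Q φ hc
    rw [map_sub, h9, map_comb] at this
    exact ⟨_, this⟩
  · obtain ⟨j, hj, e⟩ := spc_lift Q hQ φ (fun c => ⟨_, hφ c⟩) hc
    have h11 := mem_smul_R Q (φ : LF Ψ →+* Λ) (f := map (ψ : Λ →+* LF Ψ) (comb b c) - j)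
      (sub_mem (map_R Q (spc Q φ) rfl (ψ : Λ →+* LF Ψ) (JCs_le (spc Q φ) hc)) (JCs_le Q hj)) (by
        rw [map_sub, h9, e]
        exact sub_self _)
    obtain ⟨d, h12, h13⟩ : ∃ d : Fin n → LF Ψ, (∀ i, φ (d i) = 0) ∧
        map (ψ : Λ →+* LF Ψ) (comb b c) - j - comb b d ∈ JCs Q := by
      refine Submodule.smul_induction_on (p := fun f => ∃ d : Fin n → LF Ψ, (∀ i, φ (d i) = 0) ∧
        f - comb b d ∈ JCs Q) h11 (fun a ha s hs => ?_) ?_
      · obtain ⟨d, hd⟩ := h7 s hs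
        refine ⟨fun i => a * d i, fun i => ?_, ?_⟩
        · rw [map_mul, show φ a = 0 from ha, zero_mul]
        · rw [comb_mul, ← smul_eq_C_mul, ← smul_sub]
          exact (JCs Q).smul_mem a hd
      · rintro x y ⟨d, h1, h2⟩ ⟨d', h3, h4⟩
        refine ⟨fun i => d i + d' i, fun i => by rw [map_add, h1, h3, add_zero], ?_⟩
        rw [comb_add, add_sub_add_comm]
        exact add_mem h2 h4
    have h14 := add_mem h13 hj
    rw [sub_right_comm, sub_add_cancel, map_comb, ← comb_sub] at h14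
    funext i
    have h15 := congrArg φ (congrFun (h8 _ h14) i)
    rwa [map_sub, hφ, h12, sub_zero, Pi.zero_apply, map_zero] at h15

end Vale.Agent.N291

end
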