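import Vale.Agent.P291Y.B6

/-!
# Presentations of the cohomology ring and of the Coulomb branch algebra are unique
-/

set_option linter.all false

noncomputable section

namespace Vale.Agent.N291

open Set Function Vale.Agent.P291Y Dat
open P291Z (H HG HGdeg)

theorem mul_of_gen {R S : Type} [Ring R] [Ring S] (φ : R →+ S) (G : R → Prop)
    (ind : ∀ (P : R → Prop) (x : R), P 0 → (∀ a b, P a → P b → P (a + b)) →
      (∀ a, G a → P a) → P x)
    (h : ∀ a b, G a → G b → φ (a * b) = φ a * φ b) (x y : R) : φ (x * y) = φ x * φ y := by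
  refine ind (fun x => φ (x * y) = φ x * φ y) x (by simp)
    (fun a b ha hb => by rw [add_mul, map_add, map_add, ha, hb, add_mul]) fun a ha => ?_
  exact ind (fun y => φ (a * y) = φ a * φ y) y (by simp)
    (fun a b ha hb => by rw [mul_add, map_add, map_add, ha, hb, mul_add]) fun b hb => h a b ha hb

theorem exists_equiv {R S : Type} [Ring R] [Ring S] (φ : R →+ S)
    (h : ∀ x y, φ (x * y) = φ x * φ y) (h1 : ∀ x, φ x = 0 → x = 0) (h2 : Surjective φ) :
    ∃ e : R ≃+* S, ∀ x, e x = φ x :=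
  ⟨RingEquiv.ofBijective ({ φ with map_mul' := h } : R →ₙ+* S)
    ⟨(injective_iff_map_eq_zero φ).2 h1, h2⟩, fun _ => rfl⟩

theorem exists_linear {M S : Type} [AddCommGroup M] [Module ℂ M] [AddCommGroup S] [Module ℂ S]
    (f : M → S) (h : ∀ (z : ℂ) a b, f (z • a + b) = z • f a + f b) :
    ∃ φ : M →ₗ[ℂ] S, ∀ a, φ a = f a := by
  have h0 : f 0 = 0 := by
    have := h 1 0 0
    rwa [one_smul, add_zero, one_smul, left_eq_add] at this
  refine ⟨⟨⟨f, fun a b => ?_⟩, fun z a => ?_⟩, fun _ => rfl⟩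
  · have := h 1 a b
    rwa [one_smul, one_smul] at this
  · have := h z a 0
    rwa [add_zero, h0, add_zero] at this

theorem map_scal {R S : Type} [Ring R] [CommRing S] [Algebra ℂ S] (e : R ≃+* S) {a : R} {z : ℂ}
    (h : e (a * 1 + 1) = z • e 1 + e 1) : e a = algebraMap ℂ S z := by
  rw [mul_one, map_add, map_one] at h
  rw [Algebra.algebraMap_eq_smul_one]
  exact add_right_cancel h

section coh

variable {n : Dim} {Z : Type} [TopologicalSpace Z] [MulAction (P291Z.GG n.dm) Z] {k k' : ℤ}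
  {c c' : CG (hg n Z)}

theorem closed_lin {X : TopCat.{0}} (z : ℂ) {a b : C X} (ha : Closed a) (hb : Closed b) :
    Closed (lin z a b) := by
  obtain ⟨a, ha', rfl⟩ := ha.exists
  obtain ⟨b, hb', rfl⟩ := hb.exists
  exact closed_raw.2 (P291Z.cocycle_add (P291Z.cocycle_smul z ha') hb')

theorem closed_cup {X : TopCat.{0}} {a b : C X} (ha : Closed a) (hb : Closed b) :
    Closed (cup a b) := by
  obtain ⟨a, ha', rfl⟩ := ha.exists
  obtain ⟨b, hb', rfl⟩ := hb.exists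
  exact closed_raw.2 (P291Z.cocycle_mul ha' hb')

theorem deg_cup {X : TopCat.{0}} {a b : C X} (ha : Closed a) (hb : Closed b) (h : IsDeg k a)
    (h' : IsDeg k' b) : IsDeg (k + k') (cup a b) := by
  obtain ⟨a, -, rfl⟩ := ha.exists
  obtain ⟨b, -, rfl⟩ := hb.exists
  exact deg_raw.2 ((deg_raw.1 h).mul (deg_raw.1 h'))

theorem isHG_of {x : HG n.dm Z} (h1 : ∀ M, Closed (c M)) (h2 : ∀ M, IsDeg k (c M))
    (h3 : fc c = x.1) (h4 : ∀ M, H.map (P291Z.inc n.dm Z M) (x.1 (M + 1)) = x.1 M) :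
    IsHG (hg n Z) k c := fun M => ⟨h1 M, h2 M, (coh_inc_iff (h1 M) (h1 (M + 1))).2 (h3 ▸ h4 M)⟩

theorem hg_compat (x : HG n.dm Z) (M : ℕ) :
    H.map (P291Z.inc n.dm Z M) (x.1 (M + 1)) = x.1 M :=
  HG_induction (P := fun x => H.map (P291Z.inc n.dm Z M) (x.1 (M + 1)) = x.1 M) x (map_zero _)
    (fun a b ha hb => (map_add _ _ _).trans (congrArg₂ (· + ·) ha hb)) fun _ _ h => (h M).1

theorem fc_lin (z : ℂ) (h : IsHG (hg n Z) k c) (h' : IsHG (hg n Z) k' c') :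
    fc (Z := Z) (fun M => lin z (c M) (c' M)) = (sc n Z z * hc c + hc c').1 :=
  funext fun M => (rc_lin z (h M).1 (h' M).1).trans (congrArg₂ (· + ·)
    ((sc_mul z (hc c) M).trans (congrArg (fun y : ∀ M, H (P291Z.Bo n.dm Z M) => z • y M)
      h.hc_val)).symm (congrFun h'.hc_val M).symm)

theorem fc_cup (h : IsHG (hg n Z) k c) (h' : IsHG (hg n Z) k' c') :
    fc (Z := Z) (fun M => cup (c M) (c' M)) = (hc c * hc c').1 :=
  funext fun M => (rc_cup (h M).1 (h' M).1).trans (by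
    rw [Subring.coe_mul, h.hc_val, h'.hc_val]
    rfl)

theorem isHG_lin (z : ℂ) (h : IsHG (hg n Z) k c) (h' : IsHG (hg n Z) k c') :
    IsHG (hg n Z) k fun M => lin z (c M) (c' M) :=
  isHG_of (fun M => closed_lin z (h M).1 (h' M).1) (fun M l hl => by
    rw [lin, (h M).2.1 l hl, (h' M).2.1 l hl, mul_zero, add_zero]) (fc_lin z h h') (hg_compat _)

theorem isHG_cup (h : IsHG (hg n Z) k c) (h' : IsHG (hg n Z) k' c') :
    IsHG (hg n Z) (k + k') fun M => cup (c M) (c' M) :=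
  isHG_of (fun M => closed_cup (h M).1 (h' M).1)
    (fun M => deg_cup (h M).1 (h' M).1 (h M).2.1 (h' M).2.1) (fc_cup h h') (hg_compat _)

theorem hc_eq_zero (h : IsHG (hg n Z) k c) : hc c = 0 ↔ ∀ M, Coh (c M) fun _ => 0 := by
  rw [Subtype.ext_iff, h.hc_val, funext_iff]
  exact forall_congr' fun M => ((coh_iff (h M).1 closed_zero).trans (by rw [rc_zero]; rfl)).symm

theorem sc_neg_one (x : HG n.dm Z) : sc n Z (-1) * x = -x :=
  Subtype.ext (funext fun M => (sc_mul (-1) x M).trans (neg_one_smul ℂ _))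

theorem sc_one (x : HG n.dm Z) : sc n Z 1 * x = x :=
  Subtype.ext (funext fun M => (sc_mul 1 x M).trans (one_smul ℂ _))

variable {S : Type} [CommRing S] [Algebra ℂ S] {cl : CG (hg n Z) → S}

theorem cl_eq_zero (hS : IsCoh (hg n Z) S cl) (h : IsHG (hg n Z) k c) : cl c = 0 ↔ hc c = 0 := by
  classical
  obtain ⟨c0, h0⟩ : ∃ c0 : ℤ → CG (hg n Z), (∀ j, IsHG _ j (c0 j)) ∧ c0 k = c := by
    choose d hd _ using fun j => exists_hc (cmp_deg j (0 : HG n.dm Z))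
    refine ⟨update d k c, fun j => ?_, update_self _ _ _⟩
    by_cases e : j = k
    · subst e
      rwa [update_self]
    · rw [update_of_ne e]
      exact hd j
  have := hS.2.1 {k} c0 h0.1
  rw [Finset.sum_singleton, h0.2] at this
  rw [this, hc_eq_zero h]
  simp only [Finset.mem_singleton, forall_eq, h0.2]

theorem cl_congr (hS : IsCoh (hg n Z) S cl) (h : IsHG (hg n Z) k c) (h' : IsHG (hg n Z) k c')
    (e : hc c = hc c') : cl c = cl c' := by
  have h1 := (cl_eq_zero hS (isHG_lin (-1) h h')).2 (by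
    rw [hc_eq (fc_lin (-1) h h'), sc_neg_one, e, neg_add_cancel])
  rw [(hS.2.2 k k c c' h h').2 (-1) rfl, neg_one_smul, neg_add_eq_zero] at h1
  exact h1

theorem exists_sum' (x : HG n.dm Z) : ∃ s : Finset ℤ, ∑ k ∈ s, P291Y.cmp k x = x ∧
    ∀ k ∉ s, P291Y.cmp k x = 0 := by
  obtain ⟨s, hs⟩ := exists_sum_cmp x
  refine ⟨s, hs s subset_rfl, fun k hk => ?_⟩
  exact (congrArg (P291Y.cmp k) (hs s subset_rfl).symm).trans ((map_sum _ _ _).trans
    (Finset.sum_eq_zero fun j hj => cmp_ne (cmp_deg j x) fun e => hk (e ▸ hj)))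

/-- A representative of a homogeneous component. -/
def rep (k : ℤ) (x : HG n.dm Z) : CG (hg n Z) := (exists_hc (cmp_deg k x)).choose

theorem rep_deg (k : ℤ) (x : HG n.dm Z) : IsHG (hg n Z) k (rep k x) :=
  (exists_hc (cmp_deg k x)).choose_spec.1

theorem hc_rep (k : ℤ) (x : HG n.dm Z) : hc (rep k x) = P291Y.cmp k x :=
  (exists_hc (cmp_deg k x)).choose_spec.2

variable (hS : IsCoh (hg n Z) S cl)
include hS

theorem cl_rep_zero {x : HG n.dm Z} (e : P291Y.cmp k x = 0) : cl (rep k x) = 0 :=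
  (cl_eq_zero hS (rep_deg k x)).2 ((hc_rep k x).trans e)

theorem fin_rep (x : HG n.dm Z) : (support fun k => cl (rep k x)).Finite := by
  obtain ⟨s, -, hs⟩ := exists_sum' x
  exact s.finite_toSet.subset fun k hk => by_contra fun e => hk (cl_rep_zero hS (hs k e))

theorem cl_rep_add (k : ℤ) (x y : HG n.dm Z) :
    cl (rep k (x + y)) = cl (rep k x) + cl (rep k y) :=
  (cl_congr hS (rep_deg k (x + y)) (isHG_lin 1 (rep_deg k x) (rep_deg k y))
    ((hc_rep k _).trans ((map_add _ x y).trans ((congrArg₂ (· + ·)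
      ((sc_one _).trans (hc_rep k x)) (hc_rep k y)).symm.trans
      (hc_eq (fc_lin 1 (rep_deg k x) (rep_deg k y))).symm)))).trans
    (((hS.2.2 k k _ _ (rep_deg k x) (rep_deg k y)).2 1 rfl).trans
      (congrArg (· + _) (one_smul ℂ _)))

theorem exists_coh_add : ∃ φ : HG n.dm Z →+ S, ∀ x, φ x = ∑ᶠ k, cl (rep k x) :=
  ⟨AddMonoidHom.mk' (fun x => ∑ᶠ k, cl (rep k x)) fun x y =>
    (finsum_congr fun k => cl_rep_add hS k x y).trans
      (finsum_add_distrib (fin_rep hS x) (fin_rep hS y)), fun _ => rfl⟩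

theorem sum_rep (h : IsHG (hg n Z) k c) : ∑ᶠ j, cl (rep j (hc c)) = cl c :=
  (finsum_eq_single _ k fun j hj => cl_rep_zero hS (cmp_ne h.hc_deg hj)).trans
    (cl_congr hS (rep_deg k _) h ((hc_rep k _).trans (cmp_eq h.hc_deg)))

theorem sum_rep_zero {x : HG n.dm Z} (hx : ∑ᶠ j, cl (rep j x) = 0) : x = 0 := by
  obtain ⟨s, hs, hs'⟩ := exists_sum' x
  have e : ∑ k ∈ s, cl (rep k x) = 0 :=
    (finsum_eq_sum_of_support_subset _ fun k hk =>
      by_contra fun e => hk (cl_rep_zero hS (hs' k e))).symm.trans hx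
  exact hs.symm.trans (Finset.sum_eq_zero fun k hk => (hc_rep k x).symm.trans
    ((hc_eq_zero (rep_deg k x)).2 ((hS.2.1 s _ fun k => rep_deg k x).1 e k hk)))

theorem exists_coh_equiv' : ∃ e : HG n.dm Z ≃+* S,
    ∀ k c, IsHG (hg n Z) k c → e (hc c) = cl c := by
  obtain ⟨φ, hφ⟩ := exists_coh_add hS
  have h6 : ∀ k c, IsHG (hg n Z) k c → φ (hc c) = cl c := fun k c h =>
    (hφ _).trans (sum_rep hS h)
  obtain ⟨e, he⟩ := exists_equiv φ (mul_of_gen φ (fun a => ∃ k c, IsHG (hg n Z) k c ∧ hc c = a)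
    (fun P x a b h => HG_induction x a b fun k y hy => h y ⟨k, exists_hc hy⟩) (by
      rintro _ _ ⟨k, c, hc1, rfl⟩ ⟨k', c', hc2, rfl⟩
      exact (congrArg φ (hc_eq (fc_cup hc1 hc2)).symm).trans ((h6 _ _ (isHG_cup hc1 hc2)).trans
        ((hS.2.2 k k' _ _ hc1 hc2).1.trans
          (congrArg₂ (· * ·) (h6 _ _ hc1) (h6 _ _ hc2)).symm))))
    (fun x hx => sum_rep_zero hS ((hφ x).symm.trans hx)) fun y => by
      obtain ⟨s, c, h, rfl⟩ := hS.1 y
      exact ⟨∑ k ∈ s, hc (c k), (map_sum φ _ _).trans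
        (Finset.sum_congr rfl fun k _ => h6 k _ (h k))⟩
  exact ⟨e, fun k c h => (he _).trans (h6 k c h)⟩

theorem exists_coh_equiv : ∃ e : HG n.dm Z ≃+* S,
    (∀ k c, IsHG (hg n Z) k c → e (hc c) = cl c) ∧ ∀ z, e (sc n Z z) = algebraMap ℂ S z := by
  obtain ⟨e, h7⟩ := exists_coh_equiv' hS
  refine ⟨e, h7, fun z => map_scal e ?_⟩
  obtain ⟨c, h, h'⟩ := exists_hc (k := 0) (x := (1 : HG n.dm Z)) fun M => ⟨map_one _, H.isDeg_one⟩
  have h8 : e 1 = cl c := (congrArg e h'.symm).trans (h7 _ _ h)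
  exact (congrArg e ((congrArg₂ (fun a b => sc n Z z * a + b) h' h').symm.trans
    (hc_eq (fc_lin z h h)).symm)).trans ((h7 _ _ (isHG_lin z h h)).trans
      (((hS.2.2 0 0 _ _ h h).2 z rfl).trans (congrArg₂ (fun a b => z • a + b) h8 h8).symm))

end coh

attribute [local instance] Qv.fV Qv.fA Dat.fF

variable {D : Dat} {S : Type} [CommRing S] [Algebra ℂ S] {cls : ∀ p : D.Pa, AF p → S}

theorem fam_zero' (p : D.Pa) (k : ℤ) : fam (0 : D.toH.An p.bd p.ch k) = fun _ _ _ => 0 :=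
  funext fun d => funext fun M => funext fun a => fam_zero d M a

theorem cls_lin (hS : D.IsCoul S cls) {p : D.Pa} {k : ℤ} (z : ℂ) (b b' : D.toH.An p.bd p.ch k) :
    cls p (fam (z • b + b')) = z • cls p (fam b) + cls p (fam b') :=
  (congrArg (cls p) (fam_lc z b b')).trans ((hS.2.2 p k _ (an_fam b)).1 z _ (an_fam b'))

theorem exists_clsLin (hS : D.IsCoul S cls) (m : ℕ) (χ : D.qv.Vx → ℤ) (k : ℤ) :
    ∃ φ : D.toH.An m χ k →ₗ[ℂ] S, ∀ b, φ b = cls ⟨m, χ⟩ (fam (p := ⟨m, χ⟩) b) :=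
  exists_linear _ (cls_lin hS (p := ⟨m, χ⟩))

theorem push_unique {p : D.Pa} {k : ℤ} {β : AF p} {γ γ' : AF (Qv.up p)} (h : An _ k γ)
    (h' : An _ k γ') (f : ∀ d, (RS p d).Pt → (RS (Qv.up p) d).Pt)
    (e : ∀ d, 2 * (p.bd + 1) ≤ d → PushG _ _ (f d) (β d) (γ d))
    (e' : ∀ d, 2 * (p.bd + 1) ≤ d → PushG _ _ (f d) (β d) (γ' d)) : γ = γ' := by
  funext d M a
  rcases lt_or_ge d (2 * (p.bd + 1)) with hd | hd
  · exact ((h d).1 hd M a).trans ((h' d).1 hd M a).symm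
  · by_cases ha : Zc a
    · exact (e d hd M a ha).trans (e' d hd M a ha).symm
    · exact ((((h d).2 hd).1.1 M).1 a ha).trans ((((h' d).2 hd).1.1 M).1 a ha).symm

theorem cls_up (hS : D.IsCoul S cls) {p : D.Pa} {k : ℤ} (b : D.toH.An p.bd p.ch k) :
    cls (Qv.up p) (fam (p := Qv.up p) (P291Z.Flav.An.up b)) = cls p (fam b) := by
  obtain ⟨γ, h1, h2, h3⟩ := (hS.2.2 p k _ (an_fam b)).2.1
  exact (congrArg (cls _) (push_unique (an_fam (p := Qv.up p) (P291Z.Flav.An.up b)) h1 _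
    (fun d hd => coul_push b d hd _) h3)).trans h2

theorem exists_coul_lin (hS : D.IsCoul S cls) : ∃ φ : D.toH.AA →ₗ[ℂ] S,
    ∀ m χ k (b : D.toH.An m χ k), φ (P291Z.Flav.cls b) = cls ⟨m, χ⟩ (fam (p := ⟨m, χ⟩) b) := by
  choose F hF using exists_clsLin hS
  exact ⟨P291Z.Flav.AA.lift F fun m χ k b =>
    (hF _ _ _ _).trans ((cls_up hS (p := ⟨m, χ⟩) b).trans (hF _ _ _ _).symm),
    fun m χ k b => (P291Z.Flav.AA.lift_cls _ _ b).trans (hF _ _ _ _)⟩

variable {φ : D.toH.AA →ₗ[ℂ] S}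
  (h1 : ∀ m χ k (b : D.toH.An m χ k), φ (P291Z.Flav.cls b) = cls ⟨m, χ⟩ (fam (p := ⟨m, χ⟩) b))
include h1

theorem lin_cA (p : D.Pa) (k : ℤ) (β : AF p) (h : An p k β) : φ (D.cA p β) = cls p β := by
  obtain ⟨b, rfl⟩ := h.exists
  exact (congrArg φ (cA_fam b)).trans (h1 _ _ _ b)

theorem lin_mul (hS : D.IsCoul S cls) {p q : D.Pa} {k k' : ℤ} (a : D.toH.An p.bd p.ch k)
    (b : D.toH.An q.bd q.ch k') : φ (D.cA p (fam a) * D.cA q (fam b)) =
      φ (D.cA p (fam a)) * φ (D.cA q (fam b)) := by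
  obtain ⟨γ, h4, h5⟩ := coul_mul a b
  obtain ⟨γ', h6, h7⟩ := (hS.2.2 p k _ (an_fam a)).2.2 q k' _ (an_fam b)
  have h8 := (h5 γ).2 rfl
  exact (congrArg φ h4).trans ((lin_cA h1 _ _ _ h8.1).trans ((congrArg (cls _) ((h7 γ).1 h8)).trans
    (h6.symm.trans (congrArg₂ (· * ·) (lin_cA h1 _ _ _ (an_fam a))
      (lin_cA h1 _ _ _ (an_fam b))).symm)))

theorem lin_inj (hS : D.IsCoul S cls) (x : D.toH.AA) (hx : φ x = 0) : x = 0 := by
  obtain ⟨m, h⟩ := P291Z.Flav.AA.exists_sum x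
  obtain ⟨s, b, rfl⟩ := h m le_rfl
  let ε := s.equivFin.symm
  have e : ∑ j, cls ⟨m, (ε j).1.1⟩ (fam (p := ⟨m, (ε j).1.1⟩) (b (ε j).1)) = 0 := by
    refine Eq.trans ?_ ((map_sum φ _ _).symm.trans hx)
    refine Eq.trans ?_ (Finset.sum_coe_sort s fun x => φ (P291Z.Flav.cls (b x)))
    refine Eq.trans ?_ (ε.sum_comp fun x : s => φ (P291Z.Flav.cls (b x)))
    exact Finset.sum_congr rfl fun j _ => (h1 _ _ _ _).symm
  have h5 := hS.2.1 _ (fun j => ⟨m, (ε j).1.1⟩) (fun j => (ε j).1.2)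
    (fun j => fam (p := ⟨m, (ε j).1.1⟩) (b (ε j).1)) (fun j => an_fam _)
    (fun j j' e1 e2 => ε.injective (Subtype.ext (Prod.ext e1 e2))) e
  refine Finset.sum_eq_zero fun x hx => ?_
  obtain ⟨j, hj⟩ := ε.surjective ⟨x, hx⟩
  obtain rfl : (ε j).1 = x := congrArg Subtype.val hj
  exact (congrArg P291Z.Flav.cls (fam_injective (p := ⟨m, (ε j).1.1⟩) ((funext fun d =>
    funext fun M => funext (h5 j d M)).trans (fam_zero' _ _).symm))).trans P291Z.Flav.cls_zero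

omit h1 in
theorem exists_coul_equiv (hS : D.IsCoul S cls) : ∃ e : D.toH.AA ≃+* S,
    (∀ p k β, An p k β → e (D.cA p β) = cls p β) ∧ ∀ (z : ℂ) a, e (z • a) = z • e a := by
  obtain ⟨φ, h1⟩ := exists_coul_lin hS
  obtain ⟨e, he⟩ := exists_equiv φ.toAddMonoidHom (mul_of_gen _
    (fun a => ∃ (p : D.Pa) (k : ℤ) (b : D.toH.An p.bd p.ch k), a = D.cA p (fam b))
    (fun P x a b h => P291Z.Flav.AA.induction x a b fun m χ k y =>
      h _ ⟨⟨m, χ⟩, k, y, (cA_fam (p := ⟨m, χ⟩) y).symm⟩) (by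
      rintro _ _ ⟨p, k, a, rfl⟩ ⟨q, k', b, rfl⟩
      exact lin_mul h1 hS a b)) (lin_inj h1 hS) fun y => by
    have : y ∈ LinearMap.range φ := by
      refine (Submodule.span_le.2 ?_ : _ ≤ LinearMap.range φ) (hS.1.ge Submodule.mem_top)
      rintro _ ⟨p, k, β, -, h, rfl⟩
      exact ⟨_, lin_cA h1 p k β h⟩
    exact this
  exact ⟨e, fun p k β h => (he _).trans (lin_cA h1 p k β h), fun z a =>
    (he _).trans ((map_smul φ z a).trans (congrArg (z • ·) (he a).symm))⟩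

end Vale.Agent.N291

end
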