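import Vale.Agent.N291.Free
import Vale.Agent.N291.Uniq
import Vale.Agent.N291.Defs
import Vale.Agent.P291G.Fin

/-!
# The fixed scheme of the whole torus, freeness, transport along isomorphisms
-/

set_option linter.all false

noncomputable section

namespace Vale.Agent.N291

open Set Function Vale.Agent.P291Y Dat

section abstract

theorem bij_of_basis {Λ R T S : Type} [CommRing Λ] [CommRing R] [CommRing T] [CommRing S]
    [Algebra Λ T] (ι : Λ →+* R) (ψ : R →+* T) (φ : R →+* S) (U J : Set T)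
    (h1 : ∀ c, ψ (ι c) = algebraMap Λ T c) (h2 : ∀ s, (∃ r, ψ r = s) ↔ s ∈ U) (h3 : Surjective φ)
    (h4 : ∀ r, φ r = 0 ↔ ψ r ∈ J) {n : ℕ} (b : Fin n → T) (h5 : ∀ i, b i ∈ U)
    (h6 : ∀ r ∈ U, ∃ c : Fin n → Λ, r - ∑ i, c i • b i ∈ J)
    (h7 : ∀ c : Fin n → Λ, ∑ i, c i • b i ∈ J → c = 0) :
    ∃ b' : Fin n → S, Bijective fun c : Fin n → Λ => ∑ i, φ (ι (c i)) * b' i := by
  choose u hu using fun i => (h2 _).2 (h5 i)
  have e1 : ∀ c : Fin n → Λ, ψ (∑ i, ι (c i) * u i) = ∑ i, c i • b i := fun c => by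
    simp only [map_sum, map_mul, h1, hu, Algebra.smul_def]
  have e2 : ∀ c : Fin n → Λ, φ (∑ i, ι (c i) * u i) = ∑ i, φ (ι (c i)) * φ (u i) := fun c => by
    simp only [map_sum, map_mul]
  refine ⟨fun i => φ (u i), fun c c' h => sub_eq_zero.1 (h7 _ ?_), fun s => ?_⟩
  · rw [← e1, ← h4, e2]
    simp only [Pi.sub_apply, map_sub, sub_mul, Finset.sum_sub_distrib]
    exact sub_eq_zero.2 h
  · obtain ⟨r, rfl⟩ := h3 s
    obtain ⟨c, hc⟩ := h6 _ ((h2 _).1 ⟨r, rfl⟩)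
    rw [← e1, ← map_sub, ← h4, map_sub, e2, sub_eq_zero] at hc
    exact ⟨c, hc.symm⟩

theorem fr_of {Φ R₀ R S₀ S : Type} [CommRing R₀] [CommRing R] [CommRing S₀] [CommRing S]
    [Algebra ℂ R₀] [Algebra ℂ R] [Algebra R S] (e : R₀ ≃+* R)
    (he : ∀ z, e (algebraMap ℂ R₀ z) = algebraMap ℂ R z) (φ : R₀ →+* S₀) (q : S₀ ≃+* S)
    (h : ∀ r, algebraMap R S (e r) = q (φ r)) (h1 : Surjective φ) (f : Φ → R₀) {n : ℕ}
    (b : Fin n → S₀) (h2 : Bijective fun c : Fin n → MvPolynomial Φ ℂ =>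
      ∑ i, φ (MvPolynomial.aeval f (c i)) * b i) : Fr R S Φ fun a => e (f a) := by
  refine ⟨fun s => ?_, n, fun i => q (b i), ?_⟩
  · obtain ⟨s, rfl⟩ := q.surjective s
    obtain ⟨r, rfl⟩ := h1 s
    exact ⟨e r, h r⟩
  · let e' : R₀ →ₐ[ℂ] R := ⟨e.toRingHom, he⟩
    convert q.bijective.comp h2 using 1
    funext c
    simp only [comp_apply, map_sum, map_mul, ← h, Algebra.smul_def]
    exact Finset.sum_congr rfl fun i _ => congrArg (fun x => algebraMap R S x * _)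
      (MvPolynomial.comp_aeval_apply f e' (c i)).symm

theorem exists_quot {A₀ A : Type} [CommRing A₀] [CommRing A] (e : A₀ ≃+* A) (S₀ : Set A₀)
    (S : Set A) (h : S = e '' S₀) : ∃ q : (A₀ ⧸ Ideal.span S₀) ≃+* A ⧸ Ideal.span S,
      ∀ a, q (Ideal.Quotient.mk _ a) = Ideal.Quotient.mk _ (e a) :=
  ⟨Ideal.quotientEquiv _ _ e (by rw [h, Ideal.map_span]; rfl), fun _ => rfl⟩

theorem span_congr {A₀ A : Type} [CommRing A₀] [CommRing A] (e : A₀ ≃+* A) {S₀ S₀' : Set A₀}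
    {S S' : Set A} (h : S = e '' S₀) (h' : S' = e '' S₀') (h0 : Ideal.span S₀ = Ideal.span S₀') :
    Ideal.span S = Ideal.span S' := by
  rw [h, h', ← Ideal.map_span, ← Ideal.map_span, h0]

theorem grIso_of {R₀ H₀ A₀ R H A : Type} [Ring R₀] [Ring H₀] [CommRing A₀] [CommRing R]
    [CommRing H] [CommRing A] [Algebra R H] [Algebra R A] (eR : R₀ ≃+* R) (eH : H₀ ≃+* H)
    (eA : A₀ ≃+* A) (φ : R₀ → H₀) (κ : R₀ → A₀) (h1 : ∀ r, algebraMap R H (eR r) = eH (φ r))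
    (h2 : ∀ r, algebraMap R A (eR r) = eA (κ r)) {J₀ : Ideal A₀} {J : Ideal A}
    (q : (A₀ ⧸ J₀) ≃+* A ⧸ J) (hq : ∀ a, q (Ideal.Quotient.mk _ a) = Ideal.Quotient.mk _ (eA a))
    (e : H₀ ≃+* A₀ ⧸ J₀) (he : ∀ r, e (φ r) = Ideal.Quotient.mk _ (κ r)) {P : ℤ → Set H}
    {P' : ℤ → Set A} (P₀ : ℤ → Set H₀) (P₀' : ℤ → Set A₀) (h3 : ∀ k x, eH x ∈ P k ↔ x ∈ P₀ k)
    (h4 : ∀ k, P' k = eA '' P₀' k) (h5 : ∀ k x, x ∈ P₀ k ↔
      ∃ a ∈ AddSubgroup.closure (P₀' k), e x = Ideal.Quotient.mk _ a) : GrIso R H A J P P' := by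
  refine ⟨AlgEquiv.ofRingEquiv (f := eH.symm.trans (e.trans q)) fun r => ?_, fun k x => ?_⟩
  · obtain ⟨r, rfl⟩ := eR.surjective r
    change q (e (eH.symm _)) = Ideal.Quotient.mk J (algebraMap R A _)
    rw [h1, h2, eH.symm_apply_apply, he, hq]
  · obtain ⟨x, rfl⟩ := eH.surjective x
    change _ ↔ ∃ a ∈ _, q (e (eH.symm _)) = Ideal.Quotient.mk J a
    have e' : AddSubgroup.closure (eA '' P₀' k) =
        (AddSubgroup.closure (P₀' k)).map eA.toAddMonoidHom := by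
      rw [AddMonoidHom.map_closure]
      rfl
    rw [h3, h5, h4, e', eH.symm_apply_apply]
    refine ⟨fun ⟨a, h, h'⟩ => ⟨eA a, ⟨a, h, rfl⟩, by rw [h', hq]⟩, ?_⟩
    rintro ⟨_, ⟨a, h, rfl⟩, h'⟩
    exact ⟨a, h, q.injective (h'.trans (hq a).symm)⟩

theorem ext_of_gen {R S : Type} [AddCommGroup R] [AddCommGroup S] (f g : R →+ S) (G : R → Prop)
    (ind : ∀ (P : R → Prop) (x : R), P 0 → (∀ a b, P a → P b → P (a + b)) →
      (∀ a, G a → P a) → P x) (h : ∀ a, G a → f a = g a) (x : R) : f x = g x :=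
  ind (fun x => f x = g x) x (by simp) (fun a b ha hb => by rw [map_add, map_add, ha, hb]) h

end abstract

section flav

open P291Z P291Z.Flav P291Z.Four MvPolynomial Vale.Agent.P291 Vale.Agent.P291.Hik

variable {I E Φ : Type} {Q : Quiv I E} [Fintype Φ] [Fintype I] [Fintype E] {A : Flav Q Φ}
  {ν : I → ℤ}

/-- For regular `ν` the ideal of the fixed scheme is generated by all parts of nonzero charge. -/
theorem JJ_eq_all (hν : A.Regular ν) {S : Set A.AA}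
    (h : ∀ a, a ∈ S ↔ ∃ n χ k, ∃ β : A.An n χ k, (∃ i, χ i ≠ 0) ∧ a = cls β) :
    A.JJ ν = Ideal.span S := by
  classical
  obtain ⟨W⟩ := exists_wts A
  refine le_antisymm ?_ (Ideal.span_le.2 fun a ha => ?_)
  · rw [← JJ_eq_span (S := {a | ∃ n χ k, ∃ β : A.An n χ k, ∑ i, ν i * χ i ≠ 0 ∧ a = cls β})
      fun _ => Iff.rfl]
    refine Ideal.span_mono ?_
    rintro a ⟨n, χ, k, β, h1, h2⟩
    refine (h a).2 ⟨n, χ, k, β, by_contra fun e => h1 (Finset.sum_eq_zero fun i _ => ?_), h2⟩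
    rw [not_not.1 (not_exists.1 e i), mul_zero]
  · obtain ⟨n, χ, k, β, ⟨i, hi⟩, rfl⟩ := (h a).1 ha
    refine (mem_JJ W hν).2 (mem_II_of_Hm Q.qd _ χ (k := ∑ j, χ j * χ j) (ne_of_gt ?_)
      (PhiA_mem W _) ((mem_Awt W).1 (Submodule.subset_span ⟨n, χ, k, β, rfl, rfl⟩)))
    exact Finset.sum_pos' (fun j _ => mul_self_nonneg _)
      ⟨i, Finset.mem_univ _, mul_self_pos.2 hi⟩

theorem free_cq [DecidableEq I] (χ : Q.qd.Fl → Φ → ℤ) :
    ∃ (n : ℕ) (b : Fin n → SS Q.qd.Col (LF Φ)), (∀ i, b i ∈ (cq Q χ).R) ∧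
      (∀ r ∈ (cq Q χ).R, ∃ c : Fin n → LF Φ, r - ∑ i, c i • b i ∈ (cq Q χ).JC) ∧
      ∀ c : Fin n → LF Φ, ∑ i, c i • b i ∈ (cq Q χ).JC → c = 0 := by
  have e0 : (fun a => kil Φ (linF (up χ a))) = fun a => linF (χ a) :=
    funext fun a => by
      change kil Φ (linF fun o : Option Φ => o.elim 1 (χ a)) = _
      rw [linF_up, map_add, kil_rename, Int.cast_one, one_smul, kil_none, zero_add]
  have e : spc (cq Q (up χ)) (aeval fun o : Option Φ => o.elim 0 X) = cq Q χ :=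
    Eq.trans rfl (congrArg (core Q.qd) e0)
  rw [← e]
  exact free_spc _ (nonzeroLoops_up χ) (cq_lin _) _ (rename some) (kil_rename (Φ := Φ))

attribute [local instance] Ln.grp Ln.mod Ln.top Ln.act

variable (Q) in
/-- A coordinate character of the flavour torus. -/
def chA (a : Φ) : P291Z.GG (Q.nn Φ) →* ℂˣ := (Pi.evalMonoidHom (fun _ : Φ => ℂˣ) a).comp (Flav.fl Q Φ)

theorem continuous_chA (a : Φ) : Continuous (chA Q a) :=
  Matrix.GeneralLinearGroup.continuous_det.comp (continuous_apply _)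

theorem psi_eu (a : Φ) : psi Q Φ (eu (isRep_Ln (chA Q a) (continuous_chA a))) = C (X a) := by
  classical
  refine (psi_apply _).trans ((congrArg _ (psiG_eu_Ln (χ := wtOf 0 (Pi.single a 1))
    (continuous_chA a) fun t => ?_)).trans ((spE_linf _ _).trans ?_))
  · rw [chr_wtOf]
    simp [chF, Pi.single_apply, chA]
  · simp [linF, Pi.single_apply]

theorem psi_sc (z : ℂ) : psi Q Φ (sc (dQ Q Φ) Unit z) = C (C z) :=
  (psi_apply _).trans ((congrArg _ (psiG_algebraMap z _ (funext fun M =>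
    (Algebra.algebraMap_eq_smul_one z).symm))).trans (spE_C z))

end flav

end Vale.Agent.N291

end
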